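import Mathlib
import Crest.Prelude.Def_AsymptoticConvexity

/-!
General Banach space lemmas for row 125: closed finite-codimensional subspaces, a criterion for
the absence of an equivalent asymptotically uniformly convex norm, and a two-point inequality.
-/

set_option autoImplicit false

namespace Crest.Agent.R125

open Crest.AnalysisR Filter Topology

variable {X : Type} [NormedAddCommGroup X] [NormedSpace ℝ X]

/-- A complete normed space as a record. -/
abbrev mkB (X : Type) [NormedAddCommGroup X] [NormedSpace ℝ X] (hc : CompleteSpace X) :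
    RealBanach := ⟨X, inferInstance, inferInstance, hc⟩

/-- Closed and of finite codimension. -/
def Cof (S : Submodule ℝ X) : Prop := IsClosed (S : Set X) ∧ FiniteDimensional ℝ (X ⧸ S)

theorem Cof.isCof {S : Submodule ℝ X} (h : Cof S) (hc : CompleteSpace X) :
    (mkB X hc).IsCof (S : Set X) := ⟨S, rfl, h.1, h.2⟩

theorem exists_cof_of_isCof (hc : CompleteSpace X) {F : Set X} (h : (mkB X hc).IsCof F) :
    ∃ S : Submodule ℝ X, (S : Set X) = F ∧ Cof S := by
  obtain ⟨S, h1, h2, h3⟩ := h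
  exact ⟨S, h1, by rw [h1]; exact h2, h3⟩

theorem cof_ker {V : Type} [NormedAddCommGroup V] [NormedSpace ℝ V] [FiniteDimensional ℝ V]
    (T : X →L[ℝ] V) : Cof (LinearMap.ker (T : X →ₗ[ℝ] V)) := by
  refine ⟨T.isClosed_ker, ?_⟩
  exact LinearEquiv.finiteDimensional (LinearMap.quotKerEquivRange (T : X →ₗ[ℝ] V)).symm

theorem cof_bot [FiniteDimensional ℝ X] : Cof (⊥ : Submodule ℝ X) := by
  refine ⟨by simp, inferInstance⟩

/-- A closed finite-codimensional subspace is seen by a map to a Euclidean space. -/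
theorem Cof.exists_euclid {S : Submodule ℝ X} (h : Cof S) :
    ∃ (m : ℕ) (Q : X →L[ℝ] EuclideanSpace ℝ (Fin m)), (∀ x, Q x = 0 ↔ x ∈ S) ∧
      ∀ ε : ℝ, 0 < ε → ∃ δ : ℝ, 0 < δ ∧ ∀ x, ‖Q x‖ < δ → ∃ w ∈ S, ‖x - w‖ < ε := by
  have : IsClosed (S : Set X) := h.1
  have := h.2
  let e := toEuclidean (E := X ⧸ S)
  refine ⟨_, e.toContinuousLinearMap.comp S.mkQL, ?_, ?_⟩
  · intro x
    simp
  · intro ε hε
    set K := ‖e.symm.toContinuousLinearMap‖ with hK
    have hK0 : 0 ≤ K := ContinuousLinearMap.opNorm_nonneg _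
    refine ⟨ε / 2 / (K + 1), by positivity, fun x hx => ?_⟩
    have h1 : ‖(Submodule.Quotient.mk x : X ⧸ S)‖ ≤ K * ‖e (Submodule.Quotient.mk x)‖ := by
      have := e.symm.toContinuousLinearMap.le_opNorm (e (Submodule.Quotient.mk x))
      simpa using this
    have h2 : ‖e (Submodule.Quotient.mk x)‖ < ε / 2 / (K + 1) := hx
    have h3 : ‖(Submodule.Quotient.mk x : X ⧸ S)‖ ≤ ε / 2 := by
      rw [lt_div_iff₀ (by positivity)] at h2
      nlinarith [norm_nonneg (e (Submodule.Quotient.mk x))]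
    obtain ⟨m, hm, hm'⟩ := Submodule.Quotient.norm_mk_lt (Submodule.Quotient.mk x : X ⧸ S)
      (half_pos hε)
    refine ⟨x - m, ?_, by simpa using by linarith⟩
    rw [← Submodule.Quotient.eq]
    exact hm.symm

theorem Cof.inf {S T : Submodule ℝ X} (hS : Cof S) (hT : Cof T) : Cof (S ⊓ T) := by
  obtain ⟨m, Q, hQ, -⟩ := hS.exists_euclid
  obtain ⟨n, R, hR, -⟩ := hT.exists_euclid
  have : S ⊓ T = LinearMap.ker (Q.prod R).toLinearMap := by
    ext x
    simp [hQ, hR]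
  rw [this]
  exact cof_ker _

theorem cof_top : Cof (⊤ : Submodule ℝ X) := ⟨by simp, inferInstance⟩

theorem cof_biInf {ι : Type} (A : Finset ι) (S : ι → Submodule ℝ X) (h : ∀ i ∈ A, Cof (S i)) :
    Cof (⨅ i ∈ A, S i) := by
  classical
  induction A using Finset.induction_on with
  | empty => simpa using cof_top
  | insert a A ha ih =>
    rw [Finset.iInf_insert]
    exact (h a (by simp)).inf (ih fun i hi => h i (by simp [hi]))

theorem Cof.comap {Y : Type} [NormedAddCommGroup Y] [NormedSpace ℝ Y] {S : Submodule ℝ Y}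
    (h : Cof S) (T : X →L[ℝ] Y) : Cof (S.comap (T : X →ₗ[ℝ] Y)) := by
  obtain ⟨m, Q, hQ, -⟩ := h.exists_euclid
  have : S.comap (T : X →ₗ[ℝ] Y) = LinearMap.ker (Q.comp T).toLinearMap := by
    ext x
    simp [hQ]
  rw [this]
  exact cof_ker _

/-- Weakly null sequences. -/
def WeakNull (z : ℕ → X) : Prop := ∀ φ : X →L[ℝ] ℝ, Tendsto (fun n => φ (z n)) atTop (𝓝 0)

theorem WeakNull.map {Y : Type} [NormedAddCommGroup Y] [NormedSpace ℝ Y] {z : ℕ → X}
    (hz : WeakNull z) (T : X →L[ℝ] Y) : WeakNull (fun n => T (z n)) :=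
  fun φ => hz (φ.comp T)

theorem WeakNull.exists_near {z : ℕ → X} (hz : WeakNull z) {S : Submodule ℝ X} (hS : Cof S)
    {ε : ℝ} (hε : 0 < ε) : ∃ n, ∃ w ∈ S, ‖z n - w‖ < ε := by
  obtain ⟨m, Q, -, hQ⟩ := hS.exists_euclid
  obtain ⟨δ, hδ, h⟩ := hQ ε hε
  have h1 : Tendsto (fun n => EuclideanSpace.equiv (Fin m) ℝ (Q (z n))) atTop (𝓝 0) := by
    rw [tendsto_pi_nhds]
    intro i
    exact hz ((EuclideanSpace.proj i).comp Q)
  have h2 : Tendsto (fun n => Q (z n)) atTop (𝓝 0) := by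
    have := ((EuclideanSpace.equiv (Fin m) ℝ).symm.continuous.tendsto 0).comp h1
    simpa [Function.comp_def] using this
  have h3 := (tendsto_zero_iff_norm_tendsto_zero.1 h2).eventually (gt_mem_nhds hδ)
  obtain ⟨n, hn⟩ := h3.exists
  exact ⟨n, h _ hn⟩

theorem weakNull_of_sq_bound (z : ℕ → X) (C : ℝ)
    (h : ∀ (A : Finset ℕ) (c : ℕ → ℝ), ‖∑ a ∈ A, c a • z a‖ ≤ C * √(∑ a ∈ A, c a ^ 2)) :
    WeakNull z := by
  intro φ
  have key : ∀ A : Finset ℕ, ∑ a ∈ A, φ (z a) ^ 2 ≤ (‖φ‖ * C) ^ 2 := by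
    intro A
    set s := ∑ a ∈ A, φ (z a) ^ 2 with hs
    have hs0 : 0 ≤ s := Finset.sum_nonneg fun _ _ => sq_nonneg _
    have h1 : s = φ (∑ a ∈ A, φ (z a) • z a) := by
      simp [hs, map_sum, sq]
    have h2 : s ≤ ‖φ‖ * (C * √s) := by
      calc s = φ (∑ a ∈ A, φ (z a) • z a) := h1
        _ ≤ ‖φ (∑ a ∈ A, φ (z a) • z a)‖ := le_abs_self _
        _ ≤ ‖φ‖ * ‖∑ a ∈ A, φ (z a) • z a‖ := φ.le_opNorm _
        _ ≤ ‖φ‖ * (C * √s) := mul_le_mul_of_nonneg_left (h A _) (norm_nonneg _)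
    have h3 : √s * √s = s := Real.mul_self_sqrt hs0
    have h4 : 0 ≤ √s := Real.sqrt_nonneg _
    nlinarith [sq_nonneg (‖φ‖ * C - √s)]
  have hsum : Summable fun a => φ (z a) ^ 2 := summable_of_sum_le (fun _ => sq_nonneg _) key
  have h1 := hsum.tendsto_atTop_zero
  have h2 : Tendsto (fun n => √(φ (z n) ^ 2)) atTop (𝓝 0) := by
    have := (Real.continuous_sqrt.tendsto 0).comp h1
    simpa [Function.comp_def] using this
  rw [tendsto_zero_iff_norm_tendsto_zero]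
  simpa [Real.sqrt_sq_eq_abs] using h2

theorem not_finiteDimensional_of_weakNull {z : ℕ → X} (hz : WeakNull z) {δ : ℝ} (hδ : 0 < δ)
    (h : ∀ n, δ ≤ ‖z n‖) : ¬ FiniteDimensional ℝ X := by
  intro hfin
  obtain ⟨n, w, hw, hn⟩ := hz.exists_near cof_bot hδ
  rw [Submodule.mem_bot] at hw
  subst hw
  have := h n
  simp at hn
  linarith

/-- Bounded towers of every height, each step a jump of size at least `δ` that is almost inside
any prescribed closed finite-codimensional subspace, exclude an equivalent AUC norm. -/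
theorem not_AUC_of_towers (hc : CompleteSpace X) (δ C : ℝ) (hδ : 0 < δ)
    (h : ∀ n : ℕ, ∃ A : ℕ → Set X, (∃ x ∈ A 0, δ ≤ ‖x‖) ∧ (∀ k ≤ n, ∀ x ∈ A k, ‖x‖ ≤ C) ∧
      ∀ k < n, ∀ x ∈ A k, ∀ S : Submodule ℝ X, Cof S → ∀ ε : ℝ, 0 < ε →
        ∃ x' ∈ A (k + 1), δ ≤ ‖x' - x‖ ∧ ∃ w ∈ S, ‖x' - x - w‖ < ε)
    (N : X → ℝ) (hN : (mkB X hc).IsEquivNorm N) : ¬ (mkB X hc).IsAUC N := by
  intro hA
  obtain ⟨hadd, hsm, a, b, ha, hab⟩ := hN
  have hadd : ∀ x y : X, N (x + y) ≤ N x + N y := hadd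
  have hsm : ∀ (c : ℝ) (x : X), N (c • x) = |c| * N x := hsm
  have hab : ∀ x : X, a * ‖x‖ ≤ N x ∧ N x ≤ b * ‖x‖ := hab
  have hC : δ ≤ C := by
    obtain ⟨A, ⟨x, hx, hx'⟩, h2, -⟩ := h 0
    exact hx'.trans (h2 0 le_rfl x hx)
  have hb : 0 < b := by
    obtain ⟨A, ⟨x, hx, hx'⟩, -, -⟩ := h 0
    have h1 := hab x
    have h2 : 0 < ‖x‖ := hδ.trans_le hx'
    have : a * ‖x‖ ≤ b * ‖x‖ := h1.1.trans h1.2
    nlinarith
  set M := b * C with hM
  have hM0 : 0 < M := mul_pos hb (hδ.trans_le hC)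
  have haδ : 0 < a * δ := mul_pos ha hδ
  obtain ⟨c, hc0, hcA⟩ := hA (a * δ / (2 * M)) (by positivity)
  have hcA : ∀ x : X, N x = 1 → ∃ F : Set X, (mkB X hc).IsCof F ∧
      ∀ y ∈ F, N y = 1 → c ≤ N (x + (a * δ / (2 * M)) • y) - 1 := hcA
  obtain ⟨n, hn⟩ := exists_nat_gt (M / (c * (a * δ) / 2))
  obtain ⟨A, ⟨x0, hx0, hx0'⟩, hbd, hstep⟩ := h n
  have key : ∀ k ≤ n, ∃ x ∈ A k, a * δ + k * (c * (a * δ) / 2) ≤ N x := by
    intro k
    induction k with
    | zero =>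
      intro _
      refine ⟨x0, hx0, ?_⟩
      have := (hab x0).1
      have h2 : a * δ ≤ a * ‖x0‖ := mul_le_mul_of_nonneg_left hx0' ha.le
      simp only [Nat.cast_zero, zero_mul, add_zero]
      linarith
    | succ k ih =>
      intro hk
      obtain ⟨x, hx, hxN⟩ := ih (by omega)
      set r := N x with hr
      have hk0 : (0 : ℝ) ≤ k * (c * (a * δ) / 2) := by positivity
      have hr0 : a * δ ≤ r := by linarith
      have hrpos : 0 < r := haδ.trans_le hr0
      have hrM : r ≤ M := by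
        have h1 := (hab x).2
        have h2 := hbd k (by omega) x hx
        calc r ≤ b * ‖x‖ := h1
          _ ≤ b * C := mul_le_mul_of_nonneg_left h2 hb.le
      have hunit : N (r⁻¹ • x) = 1 := by
        rw [hsm, abs_of_pos (inv_pos.2 hrpos), ← hr, inv_mul_cancel₀ hrpos.ne']
      obtain ⟨F, hF, hFy⟩ := hcA _ hunit
      obtain ⟨S, rfl, hS⟩ := exists_cof_of_isCof hc hF
      obtain ⟨x', hx', hd, w, hw, hwε⟩ := hstep k (by omega) x hx S hS
        (min (δ / 2) (c * (a * δ) / (2 * b))) (by positivity)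
      refine ⟨x', hx', ?_⟩
      have hε1 : ‖x' - x - w‖ < δ / 2 := hwε.trans_le (min_le_left _ _)
      have hε2 : ‖x' - x - w‖ < c * (a * δ) / (2 * b) := hwε.trans_le (min_le_right _ _)
      have hw1 : δ / 2 ≤ ‖w‖ := by
        have : ‖x' - x‖ ≤ ‖x' - x - w‖ + ‖w‖ := by
          simpa using norm_add_le (x' - x - w) w
        linarith
      set s := N w with hs
      have hs1 : a * δ / 2 ≤ s := by
        have := (hab w).1
        nlinarith
      have hspos : 0 < s := by linarith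
      have hy : N (s⁻¹ • w) = 1 := by
        rw [hsm, abs_of_pos (inv_pos.2 hspos), ← hs, inv_mul_cancel₀ hspos.ne']
      have h1 := hFy (s⁻¹ • w) (S.smul_mem _ hw) hy
      set t := a * δ / (2 * M) with ht
      have ht0 : 0 < t := by positivity
      set l := t * r / s with hl
      have hl0 : 0 < l := by positivity
      have hl1 : l ≤ 1 := by
        rw [hl, div_le_one hspos]
        have : t * r ≤ t * M := mul_le_mul_of_nonneg_left hrM ht0.le
        have h2 : t * M = a * δ / 2 := by rw [ht]; field_simp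
        linarith
      have h2 : r • (r⁻¹ • x + t • s⁻¹ • w) = (1 - l) • x + l • (x + w) := by
        rw [smul_add, smul_smul, mul_inv_cancel₀ hrpos.ne', one_smul, smul_smul, smul_smul,
          smul_add, sub_smul, one_smul]
        have : r * t * s⁻¹ = l := by rw [hl]; field_simp
        rw [this]; abel
      have h3 : r * (1 + c) ≤ (1 - l) * r + l * N (x + w) := by
        calc r * (1 + c) ≤ r * N (r⁻¹ • x + t • s⁻¹ • w) :=
              mul_le_mul_of_nonneg_left (by linarith) hrpos.le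
          _ = N (r • (r⁻¹ • x + t • s⁻¹ • w)) := by rw [hsm, abs_of_pos hrpos]
          _ = N ((1 - l) • x + l • (x + w)) := by rw [h2]
          _ ≤ N ((1 - l) • x) + N (l • (x + w)) := hadd _ _
          _ = (1 - l) * r + l * N (x + w) := by
              rw [hsm, hsm, abs_of_nonneg (by linarith), abs_of_pos hl0]
      have h4 : r + r * c ≤ N (x + w) := by
        by_contra hcon
        push Not at hcon
        have h5 : l * N (x + w) < l * (r + r * c) := mul_lt_mul_of_pos_left hcon hl0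
        have h6 : l * (r * c) ≤ r * c := by
          have : 0 < r * c := mul_pos hrpos hc0
          nlinarith
        nlinarith
      have h5 : N (x + w) ≤ N x' + b * ‖x' - x - w‖ := by
        have h6 : x + w = x' + (-1 : ℝ) • (x' - x - w) := by rw [neg_one_smul]; abel
        have h7 := (hab (x' - x - w)).2
        calc N (x + w) = N (x' + (-1 : ℝ) • (x' - x - w)) := by rw [← h6]
          _ ≤ N x' + N ((-1 : ℝ) • (x' - x - w)) := hadd _ _
          _ = N x' + N (x' - x - w) := by rw [hsm]; simp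
          _ ≤ _ := by linarith
      have h6 : b * ‖x' - x - w‖ ≤ c * (a * δ) / 2 := by
        rw [lt_div_iff₀ (by positivity)] at hε2
        nlinarith
      have h7 : a * δ * c ≤ r * c := mul_le_mul_of_nonneg_right hr0 hc0.le
      push_cast
      nlinarith
  obtain ⟨x, hx, hxN⟩ := key n le_rfl
  have h1 : N x ≤ M := by
    calc N x ≤ b * ‖x‖ := (hab x).2
      _ ≤ b * C := mul_le_mul_of_nonneg_left (hbd n le_rfl x hx) hb.le
  rw [div_lt_iff₀ (by positivity)] at hn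
  linarith

/-- Tree form of the criterion. -/
theorem not_AUC_of_trees (hc : CompleteSpace X) (δ C : ℝ) (hδ : 0 < δ)
    (h : ∀ n : ℕ, ∃ x : List ℕ → X, (∀ s : List ℕ, s.length ≤ n + 1 → ‖x s‖ ≤ C) ∧
      δ ≤ ‖x [0]‖ ∧ (∀ s a, δ ≤ ‖x (a :: s) - x s‖) ∧
      ∀ s, WeakNull fun a => x (a :: s) - x s)
    (N : X → ℝ) (hN : (mkB X hc).IsEquivNorm N) : ¬ (mkB X hc).IsAUC N := by
  refine not_AUC_of_towers hc δ C hδ (fun n => ?_) N hN
  obtain ⟨x, h1, h2, h3, h4⟩ := h n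
  refine ⟨fun k => x '' {s | s.length = k + 1}, ⟨x [0], ⟨[0], rfl, rfl⟩, h2⟩, ?_, ?_⟩
  · rintro k hk _ ⟨s, hs, rfl⟩
    exact h1 s (by have : s.length = k + 1 := hs; omega)
  · rintro k hk _ ⟨s, hs, rfl⟩ S hS ε hε
    obtain ⟨a, w, hw, ha⟩ := (h4 s).exists_near hS hε
    have hs' : s.length = k + 1 := hs
    exact ⟨x (a :: s), ⟨a :: s, by simp [hs'], rfl⟩, h3 s a, w, hw, ha⟩

/-- The two-point inequality on a dense set of centres. -/
def Star (X : Type) [NormedAddCommGroup X] [NormedSpace ℝ X] : Prop :=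
  ∀ x : X, ∀ η : ℝ, 0 < η → ∃ x0 : X, ‖x - x0‖ < η ∧ ∃ S : Submodule ℝ X, Cof S ∧
    ∀ y ∈ S, 4 * ‖x0‖ ^ 2 + ‖y‖ ^ 2 ≤ (‖x0 + y‖ + ‖x0 - y‖) ^ 2

theorem Star.sqrt_le (h : Star X) (x : X) (η : ℝ) (hη : 0 < η) :
    ∃ S : Submodule ℝ X, Cof S ∧
      ∀ y ∈ S, √(‖x‖ ^ 2 + ‖y‖ ^ 2 / 4) - η ≤ (‖x + y‖ + ‖x - y‖) / 2 := by
  obtain ⟨x0, hx0, S, hS, hy⟩ := h x (η / 2) (half_pos hη)
  refine ⟨S, hS, fun y hyS => ?_⟩
  have h1 := hy y hyS
  have h2 : ‖x0 + y‖ ≤ ‖x + y‖ + η / 2 := by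
    have : x0 + y = (x + y) - (x - x0) := by abel
    rw [this]
    linarith [norm_sub_le (x + y) (x - x0)]
  have h3 : ‖x0 - y‖ ≤ ‖x - y‖ + η / 2 := by
    have : x0 - y = (x - y) - (x - x0) := by abel
    rw [this]
    linarith [norm_sub_le (x - y) (x - x0)]
  have h4 : ‖x‖ ≤ ‖x0‖ + η / 2 := by
    have : x = x0 + (x - x0) := by abel
    linarith [norm_add_le x0 (x - x0), congrArg norm this]
  set L := (‖x0 + y‖ + ‖x0 - y‖) / 2 with hL
  have hL0 : ‖x0‖ ≤ L := by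
    have : (2 : ℝ) • x0 = (x0 + y) + (x0 - y) := by rw [two_smul]; abel
    have h5 := norm_add_le (x0 + y) (x0 - y)
    rw [← this, norm_smul] at h5
    simp at h5
    linarith
  have h5 : √(‖x‖ ^ 2 + ‖y‖ ^ 2 / 4) ≤ L + η / 2 := by
    rw [Real.sqrt_le_left (by linarith [norm_nonneg x0])]
    have h6 : ‖x‖ ^ 2 ≤ (‖x0‖ + η / 2) ^ 2 := pow_le_pow_left₀ (norm_nonneg _) h4 2
    have h7 : ‖x0‖ ^ 2 + ‖y‖ ^ 2 / 4 ≤ L ^ 2 := by rw [hL]; nlinarith
    nlinarith [norm_nonneg x0]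
  linarith

theorem Star.midpoint (h : Star X) (hc : CompleteSpace X) (t : ℝ) (ht : 0 < t) (c : ℝ)
    (hle : c ≤ √(1 + t ^ 2 / 4) - 1) :
    (mkB X hc).MidpointModulusGE (mkB X hc).norm t c := by
  intro x hx η hη
  have hx : ‖(x : X)‖ = 1 := hx
  obtain ⟨S, hS, hy⟩ := h.sqrt_le x η hη
  refine ⟨S, hS.isCof hc, fun y hyS hy1 => ?_⟩
  have hy1 : ‖(y : X)‖ = 1 := hy1
  have := hy (t • (y : X)) (S.smul_mem _ hyS)
  rw [norm_smul, hy1, hx, Real.norm_eq_abs, abs_of_pos ht, mul_one, one_pow] at this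
  change c - η ≤ (‖(x : X) + t • (y : X)‖ + ‖(x : X) - t • (y : X)‖) / 2 - 1
  linarith

theorem Star.maxMidpoint (h : Star X) (hc : CompleteSpace X) (t : ℝ) (ht : 0 < t) :
    (mkB X hc).MaxMidpointModulusGE (mkB X hc).norm t (√(1 + t ^ 2 / 4) - 1) := by
  intro x hx η hη
  obtain ⟨F, hF, hy⟩ := h.midpoint hc t ht _ le_rfl x hx η hη
  refine ⟨F, hF, fun y hyF hy1 => ?_⟩
  have := hy y hyF hy1
  change _ ≤ (‖(x : X) + t • (y : X)‖ + ‖(x : X) - t • (y : X)‖) / 2 - 1 at this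
  change _ ≤ max ‖(x : X) + t • (y : X)‖ ‖(x : X) - t • (y : X)‖ - 1
  linarith [le_max_left ‖(x : X) + t • (y : X)‖ ‖(x : X) - t • (y : X)‖,
    le_max_right ‖(x : X) + t • (y : X)‖ ‖(x : X) - t • (y : X)‖]

/-- The closed span of all but finitely many members of a total family has finite codimension. -/
theorem cof_closure_span_compl {I : Type} (e : I → X)
    (he : Dense (Submodule.span ℝ (Set.range e) : Set X)) (T : Set I) (hT : T.Finite) :
    Cof (Submodule.span ℝ (e '' Tᶜ)).topologicalClosure := by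
  set F := (Submodule.span ℝ (e '' Tᶜ)).topologicalClosure with hF
  have hFc : IsClosed (F : Set X) := Submodule.isClosed_topologicalClosure _
  refine ⟨hFc, ?_⟩
  have := hFc
  set G : Submodule ℝ (X ⧸ F) := Submodule.span ℝ ((fun i => F.mkQ (e i)) '' T) with hG
  have : FiniteDimensional ℝ G := FiniteDimensional.span_of_finite ℝ (hT.image _)
  have hGc : IsClosed (G : Set (X ⧸ F)) := G.closed_of_finiteDimensional
  have h1 : IsClosed (G.comap F.mkQ : Set X) := hGc.preimage F.mkQL.continuous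
  have h2 : Submodule.span ℝ (Set.range e) ≤ G.comap F.mkQ := by
    rw [Submodule.span_le]
    rintro _ ⟨i, rfl⟩
    by_cases hi : i ∈ T
    · exact Submodule.subset_span ⟨i, hi, rfl⟩
    · have : e i ∈ F := Submodule.le_topologicalClosure _ (Submodule.subset_span ⟨i, hi, rfl⟩)
      change F.mkQ (e i) ∈ G
      rw [Submodule.mkQ_apply, (Submodule.Quotient.mk_eq_zero F).2 this]
      exact G.zero_mem
  have h3 : ∀ x : X, F.mkQ x ∈ G := fun x => h1.closure_subset_iff.2 h2 (he x)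
  have h4 : G = ⊤ := by
    rw [eq_top_iff]
    intro q _
    obtain ⟨x, rfl⟩ := F.mkQ_surjective q
    exact h3 x
  exact Module.Finite.of_surjective G.subtype fun q => ⟨⟨q, by rw [h4]; trivial⟩, rfl⟩

/-- A norming family of functionals that can be recombined along a finite head set gives the
two-point inequality. -/
theorem star_of_tests {I κ : Type} (e : I → X)
    (he : Dense (Submodule.span ℝ (Set.range e) : Set X)) (Φ : κ → X →L[ℝ] ℝ)
    (hΦ : ∀ f x, Φ f x ≤ ‖x‖) (hnorm : ∀ (x : X) (r : ℝ), r < ‖x‖ → ∃ f, r < Φ f x)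
    (hcomb : ∀ T0 : Set I, T0.Finite → ∃ T : Set I, T0 ⊆ T ∧ T.Finite ∧
      ∀ (f g : κ) (α β : ℝ), 0 ≤ α → 0 ≤ β → β ≤ 1 / 2 → α ^ 2 + β ^ 2 ≤ 1 →
        ∃ h₁ h₂ : κ, (∀ s ∈ T, Φ h₁ (e s) = α * Φ f (e s) ∧ Φ h₂ (e s) = α * Φ f (e s)) ∧
          ∀ s ∉ T, Φ h₁ (e s) - Φ h₂ (e s) = β * Φ g (e s)) : Star X := by
  intro x η hη
  obtain ⟨x0, hx0, hx0'⟩ := Metric.dense_iff.1 he x η hη
  rw [Metric.mem_ball, dist_comm, dist_eq_norm] at hx0
  obtain ⟨T0, hT0, hx0T⟩ : ∃ T0 : Set I, T0.Finite ∧ x0 ∈ Submodule.span ℝ (e '' T0) := by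
    obtain ⟨c, hc⟩ := (Finsupp.mem_span_range_iff_exists_finsupp).1 hx0'
    refine ⟨c.support, c.support.finite_toSet, ?_⟩
    rw [← hc]
    exact Submodule.sum_mem _ fun i hi =>
      Submodule.smul_mem _ _ (Submodule.subset_span ⟨i, hi, rfl⟩)
  obtain ⟨T, hT0T, hT, hc⟩ := hcomb T0 hT0
  have hxT : x0 ∈ Submodule.span ℝ (e '' T) := Submodule.span_mono (Set.image_mono hT0T) hx0T
  refine ⟨x0, hx0, _, cof_closure_span_compl e he T hT, fun y hy => ?_⟩
  have key : ∀ α β : ℝ, 0 ≤ α → 0 ≤ β → β ≤ 1 / 2 → α ^ 2 + β ^ 2 ≤ 1 →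
      2 * α * ‖x0‖ + β * ‖y‖ ≤ ‖x0 + y‖ + ‖x0 - y‖ := by
    intro α β hα hβ hβ2 hαβ
    refine le_of_forall_pos_le_add fun ε hε => ?_
    obtain ⟨f, hf⟩ := hnorm x0 (‖x0‖ - ε / 3) (by linarith)
    obtain ⟨g, hg⟩ := hnorm y (‖y‖ - ε / 3) (by linarith)
    obtain ⟨h₁, h₂, hT1, hT2⟩ := hc f g α β hα hβ hβ2 hαβ
    have e1 : Φ h₁ x0 + Φ h₂ x0 = 2 * α * Φ f x0 := by
      have : Submodule.span ℝ (e '' T) ≤
          LinearMap.ker ((Φ h₁ + Φ h₂ - (2 * α) • Φ f : X →L[ℝ] ℝ) : X →ₗ[ℝ] ℝ) := by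
        rw [Submodule.span_le]
        rintro _ ⟨s, hs, rfl⟩
        have := hT1 s hs
        simp only [SetLike.mem_coe, LinearMap.mem_ker, ContinuousLinearMap.coe_coe,
          sub_apply, add_apply,
          smul_apply, smul_eq_mul, this.1, this.2]
        ring
      have h2 := this hxT
      simp only [LinearMap.mem_ker, ContinuousLinearMap.coe_coe,
          sub_apply, add_apply,
          smul_apply, smul_eq_mul] at h2
      linarith
    have e2 : Φ h₁ y - Φ h₂ y = β * Φ g y := by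
      have : Submodule.span ℝ (e '' Tᶜ) ≤
          LinearMap.ker ((Φ h₁ - Φ h₂ - β • Φ g : X →L[ℝ] ℝ) : X →ₗ[ℝ] ℝ) := by
        rw [Submodule.span_le]
        rintro _ ⟨s, hs, rfl⟩
        have := hT2 s hs
        simp only [SetLike.mem_coe, LinearMap.mem_ker, ContinuousLinearMap.coe_coe,
          sub_apply,
          smul_apply, smul_eq_mul, this]
        ring
      have h2 := Submodule.topologicalClosure_minimal _ this
        (Φ h₁ - Φ h₂ - β • Φ g : X →L[ℝ] ℝ).isClosed_ker hy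
      simp only [LinearMap.mem_ker, ContinuousLinearMap.coe_coe,
          sub_apply,
          smul_apply, smul_eq_mul] at h2
      linarith
    have e3 := hΦ h₁ (x0 + y)
    have e4 := hΦ h₂ (x0 - y)
    rw [map_add] at e3
    rw [map_sub] at e4
    have hα1 : α ≤ 1 := by nlinarith
    have e5 : α * (‖x0‖ - ε / 3) ≤ α * Φ f x0 := mul_le_mul_of_nonneg_left hf.le hα
    have e6 : β * (‖y‖ - ε / 3) ≤ β * Φ g y := mul_le_mul_of_nonneg_left hg.le hβ
    nlinarith
  have hx := norm_nonneg x0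
  have hy0 := norm_nonneg y
  by_cases hcase : 4 * ‖x0‖ ^ 2 ≤ 3 * ‖y‖ ^ 2
  · have h1 : 2 * ‖y‖ ≤ ‖x0 + y‖ + ‖x0 - y‖ := by
      have : (2 : ℝ) • y = (x0 + y) - (x0 - y) := by rw [two_smul]; abel
      have h5 := norm_sub_le (x0 + y) (x0 - y)
      rw [← this, norm_smul] at h5
      simpa using h5
    have h2 : (2 * ‖y‖) ^ 2 ≤ (‖x0 + y‖ + ‖x0 - y‖) ^ 2 := pow_le_pow_left₀ (by linarith) h1 2
    nlinarith
  · push Not at hcase
    set R := √(4 * ‖x0‖ ^ 2 + ‖y‖ ^ 2) with hR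
    have hR2 : R ^ 2 = 4 * ‖x0‖ ^ 2 + ‖y‖ ^ 2 := Real.sq_sqrt (by positivity)
    have hRpos : 0 < R := Real.sqrt_pos.2 (by nlinarith)
    have h1 := key (2 * ‖x0‖ / R) (‖y‖ / R) (by positivity) (by positivity) (by
      rw [div_le_iff₀ hRpos]
      apply le_of_sq_le_sq (by nlinarith) (by positivity)) (by
      rw [div_pow, div_pow, ← add_div, div_le_one (by positivity)]
      nlinarith)
    have h2 : 2 * (2 * ‖x0‖ / R) * ‖x0‖ + ‖y‖ / R * ‖y‖ = R := by
      field_simp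
      nlinarith
    rw [h2] at h1
    rw [← hR2]
    exact pow_le_pow_left₀ hRpos.le h1 2

end Crest.Agent.R125
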