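import Mathlib
import Crest.Prelude.Def_DaugavetL1
import Crest.Agent.R125.Basic

/-!
Consequences of the Daugavet property: almost diametral points in slices and in relatively weakly
open subsets of the unit ball.
-/

set_option autoImplicit false

namespace Crest.Agent.R125

open Crest.AnalysisR Crest.AnalysisR.L1Subspace
open scoped InnerProductSpace

variable {X : Type} [NormedAddCommGroup X] [NormedSpace ℝ X]

theorem daug_unit (hD : HasDaugavetProperty X) (φ : X →L[ℝ] ℝ) (hφ : ‖φ‖ = 1) (v : X)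
    (hv : ‖v‖ = 1) (ε : ℝ) (hε : 0 < ε) :
    ∃ z : X, ‖z‖ ≤ 1 ∧ 1 - ε < φ z ∧ 2 - 2 * ε < ‖v + z‖ := by
  have h1 := hD φ v
  rw [ContinuousLinearMap.norm_smulRight_apply, hφ, hv] at h1
  obtain ⟨x, hx, hx'⟩ := (ContinuousLinearMap.id ℝ X + φ.smulRight v).exists_lt_apply_of_lt_opNorm
    (r := 2 - ε) (by rw [h1]; linarith)
  have hx' : 2 - ε < ‖x + φ x • v‖ := hx'
  obtain ⟨z, hz, hz0, hz'⟩ : ∃ z : X, ‖z‖ ≤ 1 ∧ 0 ≤ φ z ∧ 2 - ε < ‖z + φ z • v‖ := by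
    rcases le_total 0 (φ x) with h | h
    · exact ⟨x, hx.le, h, hx'⟩
    · refine ⟨-x, by simpa using hx.le, by simpa using h, ?_⟩
      rw [map_neg, neg_smul, ← neg_add, norm_neg]
      exact hx'
  have h2 : ‖φ z • v‖ = φ z := by rw [norm_smul, hv, mul_one, Real.norm_of_nonneg hz0]
  have h3 := norm_add_le z (φ z • v)
  have h4 : φ z ≤ 1 := by
    have := (le_abs_self _).trans (φ.le_opNorm z)
    rw [hφ, one_mul] at this
    linarith
  refine ⟨z, hz, by linarith, ?_⟩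
  have h5 : z + φ z • v = (v + z) - (1 - φ z) • v := by
    rw [sub_smul, one_smul]; abel
  have h6 := norm_sub_le (v + z) ((1 - φ z) • v)
  rw [← h5, norm_smul, hv, mul_one, Real.norm_of_nonneg (by linarith)] at h6
  linarith

theorem daug_slice [Nontrivial X] (hD : HasDaugavetProperty X) (φ : X →L[ℝ] ℝ) (γ : ℝ)
    (hγ : 0 < γ) (w : X) (η : ℝ) (hη : 0 < η) :
    ∃ z : X, ‖z‖ ≤ 1 ∧ ‖φ‖ - γ < φ z ∧ ‖w‖ + 1 - η ≤ ‖w + z‖ := by
  obtain ⟨v, hv, hwv⟩ : ∃ v : X, ‖v‖ = 1 ∧ w = ‖w‖ • v := by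
    rcases eq_or_ne w 0 with h | h
    · obtain ⟨v, hv⟩ := exists_norm_eq X zero_le_one
      exact ⟨v, hv, by simp [h]⟩
    · have h' : ‖w‖ ≠ 0 := norm_ne_zero_iff.2 h
      exact ⟨‖w‖⁻¹ • w, by rw [norm_smul, norm_inv, norm_norm, inv_mul_cancel₀ h'],
        by rw [smul_smul, mul_inv_cancel₀ h', one_smul]⟩
  obtain ⟨ψ, hψ, hφψ⟩ : ∃ ψ : X →L[ℝ] ℝ, ‖ψ‖ = 1 ∧ φ = ‖φ‖ • ψ := by
    rcases eq_or_ne φ 0 with h | h
    · obtain ⟨ψ, hψ, -⟩ := exists_dual_vector' ℝ v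
      exact ⟨ψ, hψ, by simp [h]⟩
    · have h' : ‖φ‖ ≠ 0 := norm_ne_zero_iff.2 h
      exact ⟨‖φ‖⁻¹ • φ, by rw [norm_smul, norm_inv, norm_norm, inv_mul_cancel₀ h'],
        by rw [smul_smul, mul_inv_cancel₀ h', one_smul]⟩
  set r := ‖w‖ with hr
  set p := ‖φ‖ with hp
  have hr0 : 0 ≤ r := norm_nonneg _
  have hp0 : 0 ≤ p := norm_nonneg _
  set ε := min (γ / (p + 1)) (η / (2 * (r + 1))) with hε
  have hε0 : 0 < ε := by positivity
  have hε1 : ε * (p + 1) ≤ γ := (le_div_iff₀ (by positivity)).1 (min_le_left _ _)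
  have hε2 : ε * (2 * (r + 1)) ≤ η := (le_div_iff₀ (by positivity)).1 (min_le_right _ _)
  obtain ⟨z, hz, hz1, hz2⟩ := daug_unit hD ψ hψ v hv ε hε0
  refine ⟨z, hz, ?_, ?_⟩
  · have : φ z = p * ψ z := by
      conv_lhs => rw [hφψ]
      rfl
    rw [this]
    nlinarith
  · have h1 : (r + 1) • (v + z) = (w + z) + (v + r • z) := by
      rw [hwv, add_smul, one_smul, smul_add]; abel
    have h2 := norm_add_le (w + z) (v + r • z)
    rw [← h1, norm_smul, Real.norm_of_nonneg (by linarith)] at h2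
    have h3 := norm_add_le v (r • z)
    rw [norm_smul, Real.norm_of_nonneg hr0, hv] at h3
    nlinarith

theorem daug_weak_aux [Nontrivial X] (hD : HasDaugavetProperty X) {V : Type}
    [NormedAddCommGroup V] [InnerProductSpace ℝ V] (Q : X →L[ℝ] V) (ε : ℝ) (hε : 0 < ε)
    (x : X) (hx : ‖x‖ ≤ 1) :
    Q x ∈ closure {k : V | ∀ (w : X) (η : ℝ), 0 < η →
      ∃ z : X, ‖z‖ ≤ 1 ∧ ‖Q z - k‖ ≤ ε ∧ ‖w‖ + 1 - η ≤ ‖w + z‖} := by
  set G := {k : V | ∀ (w : X) (η : ℝ), 0 < η →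
      ∃ z : X, ‖z‖ ≤ 1 ∧ ‖Q z - k‖ ≤ ε ∧ ‖w‖ + 1 - η ≤ ‖w + z‖} with hG
  have hscale : ∀ k ∈ G, ∀ (a : ℝ), 0 < a → ∀ (w : X) (η : ℝ), 0 < η →
      ∃ z : X, ‖z‖ ≤ 1 ∧ ‖Q z - k‖ ≤ ε ∧ ‖w‖ + a - η ≤ ‖w + a • z‖ := by
    intro k hk a ha w η hη
    obtain ⟨z, hz1, hz2, hz3⟩ := hk (a⁻¹ • w) (η / a) (by positivity)
    refine ⟨z, hz1, hz2, ?_⟩
    have h1 : w + a • z = a • (a⁻¹ • w + z) := by
      rw [smul_add, smul_smul, mul_inv_cancel₀ ha.ne', one_smul]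
    rw [h1, norm_smul, Real.norm_of_nonneg ha.le]
    rw [norm_smul, norm_inv, Real.norm_of_nonneg ha.le] at hz3
    have h2 := mul_le_mul_of_nonneg_left hz3 ha.le
    have h3 : a * (a⁻¹ * ‖w‖ + 1 - η / a) = ‖w‖ + a - η := by field_simp
    linarith
  have hconv : Convex ℝ G := by
    rw [convex_iff_forall_pos]
    intro k₁ hk₁ k₂ hk₂ a b ha hb hab w η hη
    obtain ⟨z₁, h1, h2, h3⟩ := hscale k₁ hk₁ a ha w (η / 2) (half_pos hη)
    obtain ⟨z₂, h4, h5, h6⟩ := hscale k₂ hk₂ b hb (w + a • z₁) (η / 2) (half_pos hη)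
    refine ⟨a • z₁ + b • z₂, ?_, ?_, ?_⟩
    · refine (norm_add_le _ _).trans ?_
      rw [norm_smul, norm_smul, Real.norm_of_nonneg ha.le, Real.norm_of_nonneg hb.le]
      nlinarith
    · have : Q (a • z₁ + b • z₂) - (a • k₁ + b • k₂) = a • (Q z₁ - k₁) + b • (Q z₂ - k₂) := by
        rw [map_add, map_smul, map_smul, smul_sub, smul_sub]; abel
      rw [this]
      refine (norm_add_le _ _).trans ?_
      rw [norm_smul, norm_smul, Real.norm_of_nonneg ha.le, Real.norm_of_nonneg hb.le]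
      nlinarith
    · rw [← add_assoc]
      linarith
  by_contra hcon
  obtain ⟨u, c, hu1, hu2⟩ := geometric_hahn_banach_closed_point hconv.closure isClosed_closure hcon
  set R := ‖Q‖ with hR
  have hR0 : 0 ≤ R := norm_nonneg _
  have hQ : ∀ z : X, ‖z‖ ≤ 1 → ‖Q z‖ ≤ R := fun z hz =>
    (Q.le_opNorm z).trans (by nlinarith)
  set d := u (Q x) - c with hd
  have hd0 : 0 < d := by linarith
  set θ := d / 2 / (R ^ 2 + 1) with hθ
  have hθ0 : 0 < θ := by positivity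
  have hθR : θ * R ^ 2 ≤ d / 2 := by
    have : θ * (R ^ 2 + 1) = d / 2 := by rw [hθ]; field_simp
    nlinarith
  set γ := min (θ * ε ^ 2 / 2) (d / 2) with hγ
  have hγ0 : 0 < γ := by positivity
  have hγ1 : γ ≤ θ * ε ^ 2 / 2 := min_le_left _ _
  have hγ2 : γ ≤ d / 2 := min_le_right _ _
  set F : X → ℝ := fun z => u (Q z) + θ * ‖Q z‖ ^ 2 with hF
  have hbdd : BddAbove (F '' Metric.closedBall 0 1) := by
    refine ⟨‖u‖ * R + θ * R ^ 2, ?_⟩
    rintro _ ⟨z, hz, rfl⟩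
    have h1 := hQ z (mem_closedBall_zero_iff.1 hz)
    have h2 := (le_abs_self _).trans (u.le_opNorm (Q z))
    have h3 := mul_le_mul_of_nonneg_left h1 (norm_nonneg u)
    have h4 : ‖Q z‖ ^ 2 ≤ R ^ 2 := pow_le_pow_left₀ (norm_nonneg _) h1 2
    have h5 := mul_le_mul_of_nonneg_left h4 hθ0.le
    simp only [hF]
    linarith
  have hne : (F '' Metric.closedBall 0 1).Nonempty := ⟨_, x, mem_closedBall_zero_iff.2 hx, rfl⟩
  obtain ⟨_, ⟨z₀, hz₀, rfl⟩, hz₀'⟩ := exists_lt_of_lt_csSup hne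
    (sub_lt_self (sSup (F '' Metric.closedBall 0 1)) hγ0)
  rw [mem_closedBall_zero_iff] at hz₀
  have hmax : ∀ z : X, ‖z‖ ≤ 1 → F z < F z₀ + γ := fun z hz => by
    have := le_csSup hbdd ⟨z, mem_closedBall_zero_iff.2 hz, rfl⟩
    linarith
  set φ : X →L[ℝ] ℝ := u.comp Q + (2 * θ) • (innerSL ℝ (Q z₀)).comp Q with hφ
  have hφz : ∀ z, φ z = u (Q z) + 2 * θ * ⟪Q z₀, Q z⟫_ℝ := fun z => rfl
  have hk : Q z₀ ∈ G := by
    intro w η hη
    obtain ⟨z, hz1, hz2, hz3⟩ := daug_slice hD φ γ hγ0 w η hη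
    refine ⟨z, hz1, ?_, hz3⟩
    have h1 := hmax z hz1
    have h2 : φ z₀ ≤ ‖φ‖ := by
      have := (le_abs_self _).trans (φ.le_opNorm z₀)
      nlinarith [norm_nonneg φ]
    have h3 := norm_sub_sq_real (Q z) (Q z₀)
    rw [hφz, real_inner_self_eq_norm_sq] at h2
    rw [hφz, real_inner_comm] at hz2
    simp only [hF] at h1
    apply le_of_sq_le_sq _ hε.le
    have h4 : θ * ‖Q z - Q z₀‖ ^ 2 ≤ θ * ε ^ 2 := by
      rw [h3]
      nlinarith
    exact le_of_mul_le_mul_left h4 hθ0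
  have h1 := hu1 _ (subset_closure hk)
  have h2 := hmax x hx
  have h3 : ‖Q z₀‖ ^ 2 ≤ R ^ 2 := pow_le_pow_left₀ (norm_nonneg _) (hQ z₀ hz₀) 2
  have h4 := mul_le_mul_of_nonneg_left h3 hθ0.le
  have h5 : 0 ≤ θ * ‖Q x‖ ^ 2 := by positivity
  simp only [hF] at h2
  linarith

/-- Almost diametral points in weak neighbourhoods. -/
theorem daug_weak [Nontrivial X] (hD : HasDaugavetProperty X) {S : Submodule ℝ X} (hS : Cof S)
    (x : X) (hx : ‖x‖ ≤ 1) (ε : ℝ) (hε : 0 < ε) :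
    ∃ z : X, ‖z‖ ≤ 1 ∧ ‖x‖ + 1 - ε ≤ ‖z - x‖ ∧ ∃ s ∈ S, ‖z - x - s‖ < ε := by
  obtain ⟨m, Q, -, hQ⟩ := hS.exists_euclid
  obtain ⟨δ, hδ, h⟩ := hQ ε hε
  obtain ⟨k, hk, hk'⟩ := Metric.mem_closure_iff.1
    (daug_weak_aux hD Q (δ / 2) (half_pos hδ) x hx) (δ / 2) (half_pos hδ)
  obtain ⟨z, hz1, hz2, hz3⟩ := hk (-x) ε hε
  rw [norm_neg, neg_add_eq_sub] at hz3
  refine ⟨z, hz1, hz3, h _ ?_⟩
  rw [dist_eq_norm] at hk'
  have : Q (z - x) = (Q z - k) - (Q x - k) := by rw [map_sub]; abel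
  rw [this]
  linarith [norm_sub_le (Q z - k) (Q x - k)]

theorem daug_direction [Nontrivial X] (hD : HasDaugavetProperty X) {S : Submodule ℝ X}
    (hS : Cof S) (x : X) (hx : ‖x‖ = 1) (η : ℝ) (hη : 0 < η) (t : ℝ) (ht : 0 < t) :
    ∃ y ∈ S, ‖y‖ = 1 ∧ ‖x + t • y‖ - 1 ≤ max 0 (t - 2) + η := by
  set ε := min (η / 3) (1 / 2) with hε
  have hε0 : 0 < ε := by positivity
  have hε1 : ε ≤ η / 3 := min_le_left _ _
  have hε2 : ε ≤ 1 / 2 := min_le_right _ _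
  obtain ⟨z, hz1, hz2, s, hs, hs'⟩ := daug_weak hD hS x hx.le ε hε0
  have h1 : 2 - 2 * ε ≤ ‖s‖ := by
    have := norm_add_le (z - x - s) s
    rw [sub_add_cancel] at this
    linarith
  have h2 : ‖s‖ ≤ 2 + ε := by
    have e1 : s = (z - x) - (z - x - s) := by abel
    have e2 := norm_sub_le (z - x) (z - x - s)
    rw [← e1] at e2
    linarith [norm_sub_le z x]
  have hs0 : 0 < ‖s‖ := by linarith
  set y := ‖s‖⁻¹ • s with hy
  have hy1 : ‖y‖ = 1 := by rw [hy, norm_smul, norm_inv, norm_norm, inv_mul_cancel₀ hs0.ne']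
  have hsy : s = ‖s‖ • y := by rw [hy, smul_smul, mul_inv_cancel₀ hs0.ne', one_smul]
  have h3 : ‖x + (2 : ℝ) • y‖ ≤ 1 + η := by
    have e1 : x + (2 : ℝ) • y = z - (z - x - s) + (2 - ‖s‖) • y := by
      rw [sub_smul, ← hsy]; abel
    have e2 : ‖(2 - ‖s‖) • y‖ ≤ 2 * ε := by
      rw [norm_smul, hy1, mul_one, Real.norm_eq_abs, abs_le]
      constructor <;> linarith
    rw [e1]
    linarith [norm_add_le (z - (z - x - s)) ((2 - ‖s‖) • y), norm_sub_le z (z - x - s)]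
  refine ⟨y, S.smul_mem _ hs, hy1, ?_⟩
  rcases le_total t 2 with h | h
  · have e1 : x + t • y = (1 - t / 2) • x + (t / 2) • (x + (2 : ℝ) • y) := by
      module
    have e2 := norm_add_le ((1 - t / 2) • x) ((t / 2) • (x + (2 : ℝ) • y))
    rw [← e1, norm_smul, norm_smul, hx, Real.norm_of_nonneg (by linarith),
      Real.norm_of_nonneg (by linarith)] at e2
    have e3 := le_max_left 0 (t - 2)
    nlinarith
  · have e1 : x + t • y = (x + (2 : ℝ) • y) + (t - 2) • y := by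
      rw [sub_smul]; abel
    have e2 := norm_add_le (x + (2 : ℝ) • y) ((t - 2) • y)
    rw [← e1, norm_smul, hy1, Real.norm_of_nonneg (by linarith)] at e2
    have e3 := le_max_right 0 (t - 2)
    linarith

theorem daug_not_AUC [Nontrivial X] (hD : HasDaugavetProperty X) (hc : CompleteSpace X)
    (N : X → ℝ) (hN : (mkB X hc).IsEquivNorm N) : ¬ (mkB X hc).IsAUC N := by
  refine not_AUC_of_towers hc (1 / 2) 1 (by norm_num) (fun n =>
    ⟨fun _ => Metric.closedBall 0 1, ?_, fun _ _ x hx => mem_closedBall_zero_iff.1 hx,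
      fun _ _ x hx S hS ε hε => ?_⟩) N hN
  · obtain ⟨v, hv⟩ := exists_norm_eq X zero_le_one
    exact ⟨v, mem_closedBall_zero_iff.2 hv.le, by rw [hv]; norm_num⟩
  · obtain ⟨z, hz1, hz2, s, hs, hs'⟩ := daug_weak hD hS x (mem_closedBall_zero_iff.1 hx)
      (min ε (1 / 2)) (by positivity)
    refine ⟨z, mem_closedBall_zero_iff.2 hz1, ?_, s, hs, hs'.trans_le (min_le_left _ _)⟩
    linarith [min_le_right ε (1 / 2), norm_nonneg x]

end Crest.Agent.R125
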