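import Mathlib
import Crest.Prelude.Def_Diamond
import Crest.Agent.R125.Basic

/-!
Distortion of the countably branching diamonds in a space with the two-point inequality.
-/

set_option autoImplicit false

namespace Crest.Agent.R125

open Crest.AnalysisR

theorem src_ne_tgt : ∀ (k : ℕ) (e : DiamondEdge k), diamondSrc k e ≠ diamondTgt k e
  | 0, _ => by simp [diamondSrc, diamondTgt]
  | k + 1, (e, i, b) => by cases b <;> simp [diamondSrc, diamondTgt]

theorem adj_edge (k : ℕ) (e : DiamondEdge k) :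
    (diamondGraph k).Adj (diamondSrc k e) (diamondTgt k e) := by
  rw [diamondGraph, SimpleGraph.fromRel_adj]
  exact ⟨src_ne_tgt k e, Or.inl ⟨e, rfl, rfl⟩⟩

theorem adj_cases {k : ℕ} {u v : DiamondVertex k} (h : (diamondGraph k).Adj u v) :
    ∃ e, (diamondSrc k e = u ∧ diamondTgt k e = v) ∨ (diamondSrc k e = v ∧ diamondTgt k e = u) := by
  rw [diamondGraph, SimpleGraph.fromRel_adj] at h
  rcases h.2 with ⟨e, he⟩ | ⟨e, he⟩
  · exact ⟨e, Or.inl he⟩
  · exact ⟨e, Or.inr he⟩

theorem adj_left (k : ℕ) (e : DiamondEdge k) (i : ℕ) :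
    (diamondGraph (k + 1)).Adj (Sum.inl (diamondSrc k e)) (Sum.inr (e, i)) :=
  adj_edge (k + 1) (e, i, false)

theorem adj_right (k : ℕ) (e : DiamondEdge k) (i : ℕ) :
    (diamondGraph (k + 1)).Adj (Sum.inr (e, i)) (Sum.inl (diamondTgt k e)) :=
  adj_edge (k + 1) (e, i, true)

theorem preconnected : ∀ k : ℕ, (diamondGraph k).Preconnected
  | 0 => by
    have h : (diamondGraph 0).Adj false true := adj_edge 0 ()
    intro u v
    cases u <;> cases v
    · rfl
    · exact h.reachable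
    · exact h.symm.reachable
    · rfl
  | k + 1 => by
    have ih := preconnected k
    have h1 : ∀ u v : DiamondVertex k, (diamondGraph k).Adj u v →
        (diamondGraph (k + 1)).Reachable (Sum.inl u) (Sum.inl v) := by
      intro u v h
      obtain ⟨e, ⟨rfl, rfl⟩ | ⟨rfl, rfl⟩⟩ := adj_cases h
      · exact (adj_left k e 0).reachable.trans (adj_right k e 0).reachable
      · exact ((adj_left k e 0).reachable.trans (adj_right k e 0).reachable).symm
    have h2 : ∀ u v : DiamondVertex k,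
        (diamondGraph (k + 1)).Reachable (Sum.inl u) (Sum.inl v) := by
      intro u v
      obtain ⟨w⟩ := ih u v
      induction w with
      | nil => rfl
      | cons h _ ih' => exact (h1 _ _ h).trans ih'
    have h3 : ∀ a : DiamondVertex (k + 1), ∃ u : DiamondVertex k,
        (diamondGraph (k + 1)).Reachable (Sum.inl u) a := by
      rintro (u | ⟨e, i⟩)
      · exact ⟨u, SimpleGraph.Reachable.refl _⟩
      · exact ⟨_, (adj_left k e i).reachable⟩
    intro a b
    obtain ⟨u, hu⟩ := h3 a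
    obtain ⟨v, hv⟩ := h3 b
    exact hu.symm.trans ((h2 u v).trans hv)

theorem le_dist_of_lip {V : Type} (G : SimpleGraph V) (φ : V → ℕ)
    (h : ∀ a b, G.Adj a b → φ b ≤ φ a + 1) {a b : V} (hab : G.Reachable a b) :
    φ b ≤ φ a + G.dist a b := by
  obtain ⟨w, hw⟩ := hab.exists_walk_length_eq_dist
  rw [← hw]
  clear hw hab
  induction w with
  | nil => simp
  | cons h' _ ih =>
    have := h _ _ h'
    simp only [SimpleGraph.Walk.length_cons]
    omega

theorem dist_adj_le {k : ℕ} (u : DiamondVertex k) {a b : DiamondVertex k}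
    (h : (diamondGraph k).Adj a b) :
    (diamondGraph k).dist u b ≤ (diamondGraph k).dist u a + 1 := by
  obtain ⟨w, hw⟩ := (preconnected k u a).exists_walk_length_eq_dist
  have := SimpleGraph.dist_le (w.concat h)
  rwa [SimpleGraph.Walk.length_concat, hw] at this

theorem two_mul_dist_le (k : ℕ) (u v : DiamondVertex k) :
    2 * diamondDist k u v ≤ diamondDist (k + 1) (Sum.inl u) (Sum.inl v) := by
  let φ : DiamondVertex (k + 1) → ℕ := fun a => match a with
    | Sum.inl w => 2 * (diamondGraph k).dist u w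
    | Sum.inr (e, _) => 2 * min ((diamondGraph k).dist u (diamondSrc k e))
        ((diamondGraph k).dist u (diamondTgt k e)) + 1
  have key : ∀ a b, (diamondGraph (k + 1)).Adj a b → φ b ≤ φ a + 1 := by
    intro a b h
    obtain ⟨⟨e, i, c⟩, he⟩ := adj_cases h
    have h1 := dist_adj_le u (adj_edge k e)
    have h2 := dist_adj_le u (adj_edge k e).symm
    cases c <;> rcases he with ⟨rfl, rfl⟩ | ⟨rfl, rfl⟩ <;>
      simp only [diamondSrc, diamondTgt, cond_true, cond_false, φ] <;> omega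
  have := le_dist_of_lip _ φ key (preconnected (k + 1) (Sum.inl u) (Sum.inl v))
  simpa [φ, diamondDist] using this

theorem two_le_dist_mid (k : ℕ) (e : DiamondEdge k) {i j : ℕ} (hij : i ≠ j) :
    2 ≤ diamondDist (k + 1) (Sum.inr (e, i)) (Sum.inr (e, j)) := by
  have hne : (Sum.inr (e, i) : DiamondVertex (k + 1)) ≠ Sum.inr (e, j) := by
    intro h
    exact hij (Prod.mk.inj (Sum.inr.inj h)).2
  have h0 := (preconnected (k + 1) (Sum.inr (e, i)) (Sum.inr (e, j))).pos_dist_of_ne hne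
  have h1 : (diamondGraph (k + 1)).dist (Sum.inr (e, i)) (Sum.inr (e, j)) ≠ 1 := by
    rw [Ne, SimpleGraph.dist_eq_one_iff_adj]
    intro h
    obtain ⟨⟨e', i', c⟩, he⟩ := adj_cases h
    cases c <;> simp [diamondSrc, diamondTgt] at he
  unfold diamondDist
  omega

theorem dist_edge (k : ℕ) (e : DiamondEdge k) :
    diamondDist k (diamondSrc k e) (diamondTgt k e) = 1 :=
  SimpleGraph.dist_eq_one_iff_adj.2 (adj_edge k e)

variable {X : Type} [NormedAddCommGroup X] [NormedSpace ℝ X]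

/-- A bounded sequence has two terms whose difference is almost in a given closed
finite-codimensional subspace. -/
theorem Cof.exists_pair {S : Submodule ℝ X} (hS : Cof S) (y : ℕ → X) (M : ℝ)
    (hy : ∀ i, ‖y i‖ ≤ M) {ε : ℝ} (hε : 0 < ε) :
    ∃ i j, i ≠ j ∧ ∃ w ∈ S, ‖y i - y j - w‖ < ε := by
  obtain ⟨m, Q, -, hQ⟩ := hS.exists_euclid
  obtain ⟨δ, hδ, h⟩ := hQ ε hε
  have hb : ∀ i, Q (y i) ∈ Metric.closedBall (0 : EuclideanSpace ℝ (Fin m)) (‖Q‖ * M) := by
    intro i
    rw [mem_closedBall_zero_iff]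
    exact (Q.le_opNorm _).trans (mul_le_mul_of_nonneg_left (hy i) (norm_nonneg _))
  obtain ⟨a, -, φ, hφ, hlim⟩ := (isCompact_closedBall _ _).tendsto_subseq hb
  obtain ⟨N, hN⟩ := Metric.cauchySeq_iff.1 hlim.cauchySeq δ hδ
  refine ⟨φ N, φ (N + 1), (hφ (Nat.lt_succ_self N)).ne, h _ ?_⟩
  have := hN N le_rfl (N + 1) (Nat.le_succ N)
  rw [dist_eq_norm] at this
  simpa using this

theorem Star.fork (h : Star X) (a b : X) (m : ℕ → X) (s M : ℝ) (hs : 0 < s)
    (h1 : ∀ i, ‖a - m i‖ ≤ M) (h2 : ∀ i, ‖m i - b‖ ≤ M)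
    (h3 : ∀ i j, i ≠ j → 2 * s ≤ ‖m i - m j‖) : ‖a - b‖ ^ 2 + s ^ 2 ≤ 4 * M ^ 2 := by
  have hM : 0 ≤ M := (norm_nonneg _).trans (h1 0)
  have key : ∀ ε : ℝ, 0 < ε → ε < s → ‖a - b‖ ^ 2 + (s - ε) ^ 2 ≤ 4 * (M + ε) ^ 2 := by
    intro ε hε hεs
    obtain ⟨S, hS, hy⟩ := h.sqrt_le (a - b) ε hε
    obtain ⟨i, j, hij, w, hw, hwε⟩ := hS.exists_pair (fun i => m i - b) M h2 hε
    have e0 : m i - b - (m j - b) - w = m i - m j - w := by abel
    rw [e0] at hwε
    have e1 := hy w hw
    have e2 : ‖a - b + w‖ ≤ 2 * M + ε := by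
      have : a - b + w = (a - m j) + (m i - b) - (m i - m j - w) := by abel
      rw [this]
      linarith [norm_sub_le ((a - m j) + (m i - b)) (m i - m j - w),
        norm_add_le (a - m j) (m i - b), h1 j, h2 i]
    have e3 : ‖a - b - w‖ ≤ 2 * M + ε := by
      have : a - b - w = (a - m i) + (m j - b) + (m i - m j - w) := by abel
      rw [this]
      linarith [norm_add_le ((a - m i) + (m j - b)) (m i - m j - w),
        norm_add_le (a - m i) (m j - b), h1 i, h2 j]
    have e4 : 2 * s - ε ≤ ‖w‖ := by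
      have : m i - m j = (m i - m j - w) + w := by abel
      have h5 := norm_add_le (m i - m j - w) w
      rw [← this] at h5
      linarith [h3 i j hij]
    have e5 : √(‖a - b‖ ^ 2 + ‖w‖ ^ 2 / 4) ≤ 2 * M + 2 * ε := by linarith
    rw [Real.sqrt_le_left (by positivity)] at e5
    have e6 : (2 * s - 2 * ε) ^ 2 ≤ ‖w‖ ^ 2 := pow_le_pow_left₀ (by linarith) (by linarith) 2
    nlinarith
  have hc : ContinuousAt (fun ε : ℝ => 4 * (M + ε) ^ 2 - (‖a - b‖ ^ 2 + (s - ε) ^ 2)) 0 := by
    fun_prop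
  have hlim := (hc.tendsto.mono_left (nhdsWithin_le_nhds (s := Set.Ioi 0)))
  have hev : ∀ᶠ ε in nhdsWithin (0 : ℝ) (Set.Ioi 0),
      0 ≤ 4 * (M + ε) ^ 2 - (‖a - b‖ ^ 2 + (s - ε) ^ 2) := by
    filter_upwards [Ioo_mem_nhdsGT hs] with ε hε
    linarith [key ε hε.1 hε.2]
  have := ge_of_tendsto hlim hev
  simp at this
  linarith

theorem Star.diamond_aux (h : Star X) : ∀ (k : ℕ) (f : DiamondVertex k → X) (s M : ℝ), 0 < s →
    (∀ u v, s * (diamondDist k u v : ℝ) ≤ ‖f u - f v‖) →
    (∀ e, ‖f (diamondSrc k e) - f (diamondTgt k e)‖ ≤ M) → s ^ 2 * (1 + (k : ℝ) / 4) ≤ M ^ 2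
  | 0, f, s, M, hs, h1, h2 => by
    have e1 := h1 (diamondSrc 0 ()) (diamondTgt 0 ())
    rw [dist_edge] at e1
    have e2 := h2 ()
    have : s ≤ M := by simpa using e1.trans e2
    simpa using pow_le_pow_left₀ hs.le this 2
  | k + 1, f, s, M, hs, h1, h2 => by
    have e1 : ∀ e, ‖f (Sum.inl (diamondSrc k e)) - f (Sum.inl (diamondTgt k e))‖ ^ 2 + s ^ 2 ≤
        4 * M ^ 2 := by
      intro e
      refine h.fork _ _ (fun i => f (Sum.inr (e, i))) s M hs (fun i => h2 (e, i, false))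
        (fun i => h2 (e, i, true)) fun i j hij => ?_
      have e2 := h1 (Sum.inr (e, i)) (Sum.inr (e, j))
      have e3 : (2 : ℝ) ≤ diamondDist (k + 1) (Sum.inr (e, i)) (Sum.inr (e, j)) := by
        exact_mod_cast two_le_dist_mid k e hij
      nlinarith
    have e2 := Star.diamond_aux h k (fun u => f (Sum.inl u)) (2 * s) (√(4 * M ^ 2 - s ^ 2))
      (by positivity) (fun u v => by
        have e3 := h1 (Sum.inl u) (Sum.inl v)
        have e4 : (2 : ℝ) * diamondDist k u v ≤ diamondDist (k + 1) (Sum.inl u) (Sum.inl v) := by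
          exact_mod_cast two_mul_dist_le k u v
        nlinarith) (fun e => by
        apply Real.le_sqrt_of_sq_le
        linarith [e1 e])
    have hne : Nonempty (DiamondEdge k) := by
      clear e1 e2 h1 h2 f
      induction k with
      | zero => exact ⟨()⟩
      | succ k ih => obtain ⟨e⟩ := ih; exact ⟨(e, 0, false)⟩
    obtain ⟨e⟩ := hne
    have e3 : 0 ≤ 4 * M ^ 2 - s ^ 2 := by
      nlinarith [e1 e, sq_nonneg ‖f (Sum.inl (diamondSrc k e)) - f (Sum.inl (diamondTgt k e))‖]
    rw [Real.sq_sqrt e3] at e2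
    push_cast
    nlinarith

theorem Star.diamond (h : Star X) (hc : CompleteSpace X) (k : ℕ) (f : DiamondVertex k → X)
    (D : ℝ) (hD : (mkB X hc).HasDistortionLE k f D) : 1 + (k : ℝ) / 4 ≤ D ^ 2 := by
  obtain ⟨s, hs, hf⟩ := hD
  have hf : ∀ u v : DiamondVertex k, s * (diamondDist k u v : ℝ) ≤ ‖f u - f v‖ ∧
    ‖f u - f v‖ ≤ D * s * (diamondDist k u v : ℝ) := hf
  have := h.diamond_aux k f s (D * s) hs (fun u v => (hf u v).1) fun e => by
    have := (hf (diamondSrc k e) (diamondTgt k e)).2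
    rwa [dist_edge, Nat.cast_one, mul_one] at this
  rw [mul_pow, mul_comm] at this
  exact le_of_mul_le_mul_right this (by positivity)

end Crest.Agent.R125
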