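import Mathlib
import Crest.Agent.R125.Basic

/-!
Hilbertian sums of normed spaces: the two-point inequality, reflexivity and separability pass to
the sum.
-/

set_option autoImplicit false

namespace Crest.Agent.R125

open Filter Topology

/-- Reflexivity, in elementary form. -/
def Refl (X : Type) [NormedAddCommGroup X] [NormedSpace ℝ X] : Prop :=
  ∀ ξ : (X →L[ℝ] ℝ) →L[ℝ] ℝ, ∃ x : X, ∀ φ : X →L[ℝ] ℝ, ξ φ = φ x

theorem Refl.isReflexive {X : Type} [NormedAddCommGroup X] [NormedSpace ℝ X] (h : Refl X)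
    (hc : CompleteSpace X) : (mkB X hc).IsReflexive := by
  intro ξ
  obtain ⟨x, hx⟩ := h ξ
  exact ⟨x, ContinuousLinearMap.ext fun φ => (hx φ).symm⟩

theorem refl_hilbert (H : Type) [NormedAddCommGroup H] [InnerProductSpace ℝ H] [CompleteSpace H] :
    Refl H := by
  intro ξ
  refine ⟨(InnerProductSpace.toDual ℝ H).symm (ξ.comp (innerSL ℝ : H →L[ℝ] H →L[ℝ] ℝ)), fun φ => ?_⟩
  obtain ⟨v, rfl⟩ := (InnerProductSpace.toDual ℝ H).surjective φ
  rw [InnerProductSpace.toDual_apply_apply, real_inner_comm, InnerProductSpace.toDual_symm_apply]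
  rfl

theorem Refl.of_equiv {X Y : Type} [NormedAddCommGroup X] [NormedSpace ℝ X]
    [NormedAddCommGroup Y] [NormedSpace ℝ Y] (h : Refl X) (T : X ≃L[ℝ] Y) : Refl Y := by
  intro ξ
  obtain ⟨x, hx⟩ := h (ξ.comp
    ((ContinuousLinearMap.compL ℝ Y X ℝ).flip T.symm.toContinuousLinearMap))
  refine ⟨T x, fun φ => ?_⟩
  have := hx (φ.comp T.toContinuousLinearMap)
  simp only [ContinuousLinearMap.comp_apply, ContinuousLinearMap.flip_apply,
    ContinuousLinearMap.compL_apply] at this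
  have h2 : (φ.comp T.toContinuousLinearMap).comp T.symm.toContinuousLinearMap = φ := by
    ext y; simp
  rw [h2] at this
  exact this

variable {ι : Type} [DecidableEq ι] {Y : ι → Type} [∀ n, NormedAddCommGroup (Y n)]
  [∀ n, NormedSpace ℝ (Y n)]

omit [DecidableEq ι] [∀ n, NormedSpace ℝ (Y n)] in
theorem hasSum_sq (f : lp Y 2) : HasSum (fun i => ‖f i‖ ^ 2) (‖f‖ ^ 2) := by
  have := lp.hasSum_norm (p := 2) (by norm_num) f
  simpa using this

omit [DecidableEq ι] [∀ n, NormedSpace ℝ (Y n)] in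
theorem sum_sq_le (f : lp Y 2) (A : Finset ι) : ∑ i ∈ A, ‖f i‖ ^ 2 ≤ ‖f‖ ^ 2 :=
  sum_le_hasSum A (fun _ _ => sq_nonneg _) (hasSum_sq f)

omit [DecidableEq ι] [∀ n, NormedSpace ℝ (Y n)] in
theorem memℓp_two {f : ∀ i, Y i} {C : ℝ} (h : ∀ A : Finset ι, ∑ i ∈ A, ‖f i‖ ^ 2 ≤ C) :
    Memℓp f 2 :=
  memℓp_gen' (C := C) fun A => by simpa using h A

omit [DecidableEq ι] [∀ n, NormedSpace ℝ (Y n)] in
theorem norm_le_of_sum_sq {f : lp Y 2} {C : ℝ} (hC : 0 ≤ C)
    (h : ∀ A : Finset ι, ∑ i ∈ A, ‖f i‖ ^ 2 ≤ C ^ 2) : ‖f‖ ≤ C :=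
  le_of_sq_le_sq (hasSum_le_of_sum_le (hasSum_sq f) h) hC

omit [DecidableEq ι] [∀ n, NormedSpace ℝ (Y n)] in
theorem sum_mul_norm_le (c : ι → ℝ) (f : lp Y 2) (A : Finset ι) :
    ∑ i ∈ A, c i * ‖f i‖ ≤ √(∑ i ∈ A, c i ^ 2) * ‖f‖ := by
  refine (Real.sum_mul_le_sqrt_mul_sqrt A c fun i => ‖f i‖).trans ?_
  refine mul_le_mul_of_nonneg_left ?_ (Real.sqrt_nonneg _)
  exact Real.sqrt_le_iff.2 ⟨norm_nonneg _, sum_sq_le f A⟩

/-- Truncation to finitely many components. -/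
noncomputable def trP (Y : ι → Type) [∀ n, NormedAddCommGroup (Y n)] [∀ n, NormedSpace ℝ (Y n)]
    (A : Finset ι) : lp Y 2 →L[ℝ] lp Y 2 :=
  ∑ n ∈ A, (lp.singleContinuousLinearMap ℝ Y 2 n).comp (lp.evalCLM ℝ Y 2 n)

theorem trP_apply (A : Finset ι) (x : lp Y 2) : trP Y A x = ∑ n ∈ A, lp.single 2 n (x n) := by
  simp only [trP, sum_apply]
  rfl

omit [∀ n, NormedSpace ℝ (Y n)] in
theorem sum_single_apply (A : Finset ι) (x : ∀ n, Y n) (i : ι) :
    (∑ n ∈ A, lp.single 2 n (x n) : lp Y 2) i = if i ∈ A then x i else 0 := by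
  simp only [lp.coeFn_single, lp.coeFn_sum, Finset.sum_apply, Finset.sum_pi_single]

theorem tendsto_trP (x : lp Y 2) : Tendsto (fun A => trP Y A x) atTop (𝓝 x) := by
  simp only [trP_apply]
  exact lp.hasSum_single (by norm_num) x

theorem star_lp (h : ∀ n, Star (Y n)) : Star (lp Y 2) := by
  intro x η hη
  obtain ⟨A, hA⟩ := (Metric.tendsto_nhds.1 (tendsto_trP x) (η / 2) (half_pos hη)).exists
  rw [dist_comm, dist_eq_norm, trP_apply] at hA
  have hη' : 0 < η / 2 / (A.card + 1) := by positivity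
  choose x0 hx0 S hS hy using fun n => h n (x n) _ hη'
  refine ⟨∑ n ∈ A, lp.single 2 n (x0 n), ?_,
    ⨅ n ∈ A, (S n).comap (lp.evalCLM ℝ Y 2 n).toLinearMap,
    cof_biInf A _ fun n _ => (hS n).comap _, fun y hyS => ?_⟩
  · have h1 : ‖(∑ n ∈ A, lp.single 2 n (x n) : lp Y 2) - ∑ n ∈ A, lp.single 2 n (x0 n)‖ ≤
        η / 2 := by
      rw [← Finset.sum_sub_distrib]
      refine (norm_sum_le _ _).trans ?_
      have : ∀ n ∈ A, ‖(lp.single 2 n (x n) : lp Y 2) - lp.single 2 n (x0 n)‖ ≤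
          η / 2 / (A.card + 1) := by
        intro n _
        rw [← lp.single_sub, lp.norm_single (by norm_num)]
        exact (hx0 n).le
      refine (Finset.sum_le_card_nsmul _ _ _ this).trans ?_
      rw [nsmul_eq_mul, mul_div_assoc', div_le_iff₀ (by positivity)]
      nlinarith
    calc _ = ‖(x - ∑ n ∈ A, lp.single 2 n (x n)) +
          ((∑ n ∈ A, lp.single 2 n (x n) : lp Y 2) - ∑ n ∈ A, lp.single 2 n (x0 n))‖ := by
          congr 1; abel
      _ ≤ _ := norm_add_le _ _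
      _ < η := by linarith
  · set z : lp Y 2 := ∑ n ∈ A, lp.single 2 n (x0 n) with hz
    have hterm : ∀ n, 4 * ‖z n‖ ^ 2 + ‖y n‖ ^ 2 ≤ (‖(z + y) n‖ + ‖(z - y) n‖) ^ 2 := by
      intro n
      have e1 : (z + y) n = z n + y n := rfl
      have e2 : (z - y) n = z n - y n := rfl
      rw [e1, e2, hz, sum_single_apply]
      split_ifs with hn
      · refine hy n (y n) ?_
        simp only [Submodule.mem_iInf] at hyS
        exact hyS n hn
      · simp only [norm_zero, zero_add, zero_sub, norm_neg]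
        nlinarith [sq_nonneg ‖y n‖]
    refine hasSum_le_of_sum_le (((hasSum_sq z).mul_left 4).add (hasSum_sq y)) fun B => ?_
    refine (Finset.sum_le_sum fun n _ => hterm n).trans ?_
    have h1 := sum_sq_le (z + y) B
    have h2 := sum_sq_le (z - y) B
    have h3 := sum_mul_norm_le (fun n => ‖(z + y) n‖) (z - y) B
    have h4 : √(∑ i ∈ B, ‖(z + y) i‖ ^ 2) ≤ ‖z + y‖ := Real.sqrt_le_iff.2 ⟨norm_nonneg _, h1⟩
    have h5 := mul_le_mul_of_nonneg_right h4 (norm_nonneg (z - y))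
    have h6 : ∑ n ∈ B, (‖(z + y) n‖ + ‖(z - y) n‖) ^ 2 = ∑ n ∈ B, ‖(z + y) n‖ ^ 2 +
        2 * ∑ n ∈ B, ‖(z + y) n‖ * ‖(z - y) n‖ + ∑ n ∈ B, ‖(z - y) n‖ ^ 2 := by
      rw [Finset.mul_sum, ← Finset.sum_add_distrib, ← Finset.sum_add_distrib]
      exact Finset.sum_congr rfl fun n _ => by ring
    rw [h6]
    nlinarith

omit [DecidableEq ι] [∀ n, NormedSpace ℝ (Y n)] in
theorem norm_add_sq_of_disjoint (u v : lp Y 2) (h : ∀ n, u n = 0 ∨ v n = 0) :
    ‖u + v‖ ^ 2 = ‖u‖ ^ 2 + ‖v‖ ^ 2 := by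
  refine (hasSum_sq (u + v)).unique ?_
  have := (hasSum_sq u).add (hasSum_sq v)
  convert this using 2 with n
  have e1 : (u + v) n = u n + v n := rfl
  rw [e1]
  rcases h n with h | h <;> simp [h]

theorem trP_disjoint (A : Finset ι) (x y : lp Y 2) (c : ℝ) (n : ι) :
    trP Y A x n = 0 ∨ (c • (y - trP Y A y)) n = 0 := by
  have e1 : (c • (y - trP Y A y)) n = c • (y n - trP Y A y n) := rfl
  rw [e1, trP_apply, trP_apply, sum_single_apply, sum_single_apply]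
  by_cases hn : n ∈ A <;> simp [hn]

theorem norm_trP_sq (A : Finset ι) (x : lp Y 2) :
    ‖trP Y A x‖ ^ 2 + ‖x - trP Y A x‖ ^ 2 = ‖x‖ ^ 2 := by
  have := norm_add_sq_of_disjoint _ _ (trP_disjoint A x x 1)
  simpa using this.symm

theorem exists_tail_small (φ : lp Y 2 →L[ℝ] ℝ) (ε : ℝ) (hε : 0 < ε) :
    ∃ B : Finset ι, ‖φ - φ.comp (trP Y B)‖ ≤ ε := by
  set τ := ε / (1 + ‖φ‖) with hτ
  have hφ := norm_nonneg φ
  have hτ0 : 0 < τ := by positivity
  obtain ⟨x, hx1, hx2⟩ : ∃ x : lp Y 2, ‖x‖ ≤ 1 ∧ ‖φ‖ - τ ^ 2 < φ x := by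
    obtain ⟨x, hx, hx'⟩ := φ.exists_lt_apply_of_lt_opNorm (r := ‖φ‖ - τ ^ 2)
      (by linarith [pow_pos hτ0 2])
    rcases le_total 0 (φ x) with h | h
    · exact ⟨x, hx.le, by rwa [Real.norm_of_nonneg h] at hx'⟩
    · exact ⟨-x, by simpa using hx.le, by rwa [Real.norm_of_nonpos h, ← map_neg] at hx'⟩
  obtain ⟨B, hB⟩ := (((φ.continuous.tendsto x).comp (tendsto_trP x)).eventually
    (lt_mem_nhds hx2)).exists
  have hB : ‖φ‖ - τ ^ 2 < φ (trP Y B x) := hB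
  have key : ∀ y : lp Y 2, ‖y‖ ≤ 1 → φ (y - trP Y B y) ≤ ε := by
    intro y hy
    have h1 := norm_add_sq_of_disjoint _ _ (trP_disjoint B x y τ)
    have h2 := norm_trP_sq B x
    have h3 := norm_trP_sq B y
    have h4 : ‖trP Y B x + τ • (y - trP Y B y)‖ ≤ 1 + τ ^ 2 := by
      apply le_of_sq_le_sq _ (by positivity)
      rw [h1, norm_smul, Real.norm_of_nonneg hτ0.le, mul_pow]
      have h5 : ‖x‖ ^ 2 ≤ 1 := by nlinarith [norm_nonneg x]
      have h6 : ‖y‖ ^ 2 ≤ 1 := by nlinarith [norm_nonneg y]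
      have h7 : ‖y - trP Y B y‖ ^ 2 ≤ 1 := by nlinarith [sq_nonneg ‖trP Y B y‖]
      have h8 : τ ^ 2 * ‖y - trP Y B y‖ ^ 2 ≤ τ ^ 2 := by nlinarith [sq_nonneg τ]
      nlinarith [sq_nonneg ‖x - trP Y B x‖, sq_nonneg (τ ^ 2)]
    have h5 := (le_abs_self _).trans (φ.le_opNorm (trP Y B x + τ • (y - trP Y B y)))
    rw [map_add, map_smul, smul_eq_mul] at h5
    have h6 := mul_le_mul_of_nonneg_left h4 hφ
    have h7 : τ * φ (y - trP Y B y) ≤ τ * ε := by
      have : ε = τ * (1 + ‖φ‖) := by rw [hτ]; field_simp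
      rw [this]
      nlinarith
    exact le_of_mul_le_mul_left h7 hτ0
  refine ⟨B, ContinuousLinearMap.opNorm_le_of_unit_norm hε.le fun y hy => ?_⟩
  have h1 := key y hy.le
  have h2 := key (-y) (by simpa using hy.le)
  simp only [map_sub, map_neg] at h1 h2
  rw [Real.norm_eq_abs, abs_le]
  simp only [sub_apply, ContinuousLinearMap.comp_apply]
  constructor <;> linarith

theorem refl_lp (h : ∀ n, Refl (Y n)) : Refl (lp Y 2) := by
  intro ξ
  choose x hx using fun n => h n (ξ.comp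
    ((ContinuousLinearMap.compL ℝ (lp Y 2) (Y n) ℝ).flip (lp.evalCLM ℝ Y 2 n)))
  have hx' : ∀ n (ψ : Y n →L[ℝ] ℝ), ξ (ψ.comp (lp.evalCLM ℝ Y 2 n)) = ψ (x n) := hx
  have hb : ∀ A : Finset ι, ∑ i ∈ A, ‖x i‖ ^ 2 ≤ ‖ξ‖ ^ 2 := by
    intro A
    choose ψ hψ1 hψ2 using fun n => exists_dual_vector'' ℝ (x n)
    set s := ∑ i ∈ A, ‖x i‖ ^ 2 with hs
    have hs0 : 0 ≤ s := Finset.sum_nonneg fun _ _ => sq_nonneg _
    set φ : lp Y 2 →L[ℝ] ℝ := ∑ n ∈ A, ‖x n‖ • (ψ n).comp (lp.evalCLM ℝ Y 2 n) with hφ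
    have h1 : ξ φ = s := by
      rw [hφ, map_sum]
      refine Finset.sum_congr rfl fun n _ => ?_
      rw [map_smul, hx', hψ2]
      simp [sq]
    have h2 : ‖φ‖ ≤ √s := by
      refine ContinuousLinearMap.opNorm_le_bound _ (Real.sqrt_nonneg _) fun y => ?_
      refine le_trans ?_ (sum_mul_norm_le (fun n => ‖x n‖) y A)
      rw [hφ, sum_apply]
      refine (norm_sum_le _ _).trans (Finset.sum_le_sum fun n _ => ?_)
      have e1 : (‖x n‖ • (ψ n).comp (lp.evalCLM ℝ Y 2 n)) y = ‖x n‖ * ψ n (y n) := rfl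
      rw [e1, norm_mul, norm_norm]
      refine mul_le_mul_of_nonneg_left (((ψ n).le_opNorm _).trans ?_) (norm_nonneg _)
      nlinarith [hψ1 n, norm_nonneg (y n)]
    have h3 : s ≤ ‖ξ‖ * √s := by
      rw [← h1]
      refine ((le_abs_self _).trans (ξ.le_opNorm φ)).trans ?_
      rw [h1]
      exact mul_le_mul_of_nonneg_left h2 (norm_nonneg _)
    have h4 : √s * √s = s := Real.mul_self_sqrt hs0
    nlinarith [sq_nonneg (‖ξ‖ - √s)]
  let z : lp Y 2 := ⟨x, memℓp_two hb⟩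
  refine ⟨z, fun φ => ?_⟩
  have key : ∀ B : Finset ι, ξ (φ.comp (trP Y B)) = φ.comp (trP Y B) z := by
    intro B
    rw [trP, ContinuousLinearMap.comp_finsetSum, map_sum, sum_apply]
    refine Finset.sum_congr rfl fun n _ => ?_
    rw [← ContinuousLinearMap.comp_assoc, hx']
    rfl
  have hle : ∀ ε : ℝ, 0 < ε → |ξ φ - φ z| ≤ (‖ξ‖ + ‖z‖) * ε := by
    intro ε hε
    obtain ⟨B, hB⟩ := exists_tail_small φ ε hε
    have h1 := ξ.le_opNorm (φ - φ.comp (trP Y B))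
    have h2 := (φ - φ.comp (trP Y B)).le_opNorm z
    rw [map_sub, key, Real.norm_eq_abs] at h1
    rw [sub_apply, Real.norm_eq_abs] at h2
    have h3 := mul_le_mul_of_nonneg_left hB (norm_nonneg ξ)
    have h4 := mul_le_mul_of_nonneg_right hB (norm_nonneg z)
    rw [abs_le] at h1 h2 ⊢
    constructor <;> nlinarith [h1.1, h1.2, h2.1, h2.2]
  have : |ξ φ - φ z| ≤ 0 := by
    refine le_of_forall_pos_le_add fun ε hε => ?_
    have h1 := hle (ε / (‖ξ‖ + ‖z‖ + 1)) (by positivity)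
    refine h1.trans ?_
    rw [mul_div_assoc', div_le_iff₀ (by positivity)]
    nlinarith
  exact sub_eq_zero.1 (abs_nonpos_iff.1 this)

theorem separable_lp [Countable ι] (h : ∀ n, TopologicalSpace.SeparableSpace (Y n)) :
    TopologicalSpace.SeparableSpace (lp Y 2) := by
  have h1 : TopologicalSpace.IsSeparable
      (⋃ n, Set.range (lp.singleContinuousLinearMap ℝ Y 2 n)) :=
    TopologicalSpace.IsSeparable.iUnion fun n =>
      TopologicalSpace.isSeparable_range (lp.singleContinuousLinearMap ℝ Y 2 n).continuous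
  have h2 := (h1.span (R := ℝ)).closure
  refine TopologicalSpace.isSeparable_univ_iff.1 (h2.mono fun x _ => ?_)
  refine mem_closure_of_tendsto (tendsto_trP x) (Eventually.of_forall fun A => ?_)
  rw [trP_apply]
  exact Submodule.sum_mem _ fun n _ =>
    Submodule.subset_span (Set.mem_iUnion.2 ⟨n, x n, rfl⟩)

end Crest.Agent.R125
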