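import Mathlib
import Crest.Prelude.Def_TreePotentials
import Crest.Agent.R125.Basic

/-!
Recombination of tests with bounded path potentials on the countably branching tree.
-/

set_option autoImplicit false

namespace Crest.Agent.R125

open Crest.AnalysisR Crest.AnalysisR.TreePotential

/-- The value of `F` at the last ancestor lying in `T`. -/
noncomputable def lastVal (T : Set (List ℕ)) (F : List ℕ → ℝ) : List ℕ → ℝ
  | [] => F []
  | a :: v => by classical exact if (a :: v) ∈ T then F (a :: v) else lastVal T F v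

theorem lastVal_mem {T : Set (List ℕ)} (F : List ℕ → ℝ) {s : List ℕ} (hs : s ∈ T) :
    lastVal T F s = F s := by
  cases s with
  | nil => rfl
  | cons a v => simp [lastVal, hs]

theorem lastVal_not_mem {T : Set (List ℕ)} (F : List ℕ → ℝ) {a : ℕ} {v : List ℕ}
    (hs : a :: v ∉ T) : lastVal T F (a :: v) = lastVal T F v := by
  simp [lastVal, hs]

theorem abs_lastVal_le {T : Set (List ℕ)} (F : List ℕ → ℝ) (C : List ℕ → Prop)
    (hC : ∀ a v, C (a :: v) → C v) (hF : ∀ s, C s → |F s| ≤ 1) :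
    ∀ s, C s → |lastVal T F s| ≤ 1 := by
  intro s
  induction s with
  | nil => exact hF []
  | cons a v ih =>
    intro hs
    by_cases h : a :: v ∈ T
    · rw [lastVal_mem F h]; exact hF _ hs
    · rw [lastVal_not_mem F h]; exact ih (hC a v hs)

/-- The increments of a function on vertices. -/
def incr (H : List ℕ → ℝ) : List ℕ → ℝ
  | [] => H []
  | a :: v => H (a :: v) - H v

theorem pathPotential_incr (H : List ℕ → ℝ) (s : List ℕ) : pathPotential (incr H) s = H s := by
  induction s with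
  | nil => rfl
  | cons a v ih => simp [pathPotential, incr, ih]

/-- One-sided truncation, towards the side away from the sign of `p`. -/
noncomputable def trunc (p q : ℝ) : ℝ := if 0 ≤ p then min q 0 else max q 0

theorem trunc_zero (p : ℝ) : trunc p 0 = 0 := by simp [trunc]

theorem trunc_sub (p q : ℝ) : trunc p q - trunc p (-q) = q := by
  unfold trunc
  split_ifs
  · rcases le_total q 0 with h | h
    · rw [min_eq_left h, min_eq_right (by linarith)]; ring
    · rw [min_eq_right h, min_eq_left (by linarith)]; ring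
  · rcases le_total q 0 with h | h
    · rw [max_eq_right h, max_eq_left (by linarith)]; ring
    · rw [max_eq_left h, max_eq_right (by linarith)]; ring

theorem trunc_lip (p q q' : ℝ) : |trunc p q - trunc p q'| ≤ |q - q'| := by
  unfold trunc
  split_ifs
  · exact abs_min_sub_min_le_max q 0 q' 0 |>.trans (by simp)
  · exact abs_max_sub_max_le_abs q q' 0

theorem abs_comb_le {p q α β : ℝ} (hp : |p| ≤ 1) (hq : |q| ≤ 2) (hα : 0 ≤ α) (hα1 : α ≤ 1)
    (hβ : 0 ≤ β) (hβ1 : β ≤ 1 / 2) : |α * p + β * trunc p q| ≤ 1 := by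
  rw [abs_le] at hp hq ⊢
  unfold trunc
  split_ifs with h
  · have h1 : min q 0 ≤ 0 := min_le_right _ _
    have h2 : -2 ≤ min q 0 := le_min hq.1 (by norm_num)
    constructor <;> nlinarith
  · have h1 : 0 ≤ max q 0 := le_max_right _ _
    have h2 : max q 0 ≤ 2 := max_le hq.2 (by norm_num)
    push Not at h
    constructor <;> nlinarith

theorem exists_comb (C : List ℕ → Prop) (hC : ∀ a v, C (a :: v) → C v) (T : Set (List ℕ))
    (h0 : [] ∈ T) (hT : ∀ a v, a :: v ∈ T → v ∈ T) (f g : List ℕ → ℝ)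
    (hf : ∀ s, C s → |pathPotential f s| ≤ 1) (hg : ∀ s, C s → |pathPotential g s| ≤ 1)
    (α β : ℝ) (hα : 0 ≤ α) (hα1 : α ≤ 1) (hβ : 0 ≤ β) (hβ1 : β ≤ 1 / 2) :
    ∃ h₁ h₂ : List ℕ → ℝ,
      (∀ s, C s → |pathPotential h₁ s| ≤ 1) ∧ (∀ s, C s → |pathPotential h₂ s| ≤ 1) ∧
      (∀ s, h₁ s ^ 2 ≤ α ^ 2 * f s ^ 2 + β ^ 2 * g s ^ 2) ∧
      (∀ s, h₂ s ^ 2 ≤ α ^ 2 * f s ^ 2 + β ^ 2 * g s ^ 2) ∧
      (∀ s ∈ T, h₁ s = α * f s ∧ h₂ s = α * f s) ∧ ∀ s ∉ T, h₁ s - h₂ s = β * g s := by
  set p := lastVal T (pathPotential f) with hp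
  set q : List ℕ → ℝ := fun s => pathPotential g s - lastVal T (pathPotential g) s with hq
  have hp1 : ∀ s, C s → |p s| ≤ 1 := abs_lastVal_le _ C hC hf
  have hq2 : ∀ s, C s → |q s| ≤ 2 := by
    intro s hs
    have h1 := hg s hs
    have h2 := abs_lastVal_le (T := T) _ C hC hg s hs
    rw [abs_le] at h1 h2 ⊢
    simp only [hq]
    constructor <;> linarith [h1.1, h1.2, h2.1, h2.2]
  have hqT : ∀ s ∈ T, q s = 0 := fun s hs => by simp [hq, lastVal_mem _ hs]
  have hpT : ∀ s ∈ T, p s = pathPotential f s := fun s hs => lastVal_mem _ hs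
  have hpN : ∀ a v, a :: v ∉ T → p (a :: v) = p v := fun a v h => lastVal_not_mem _ h
  have hqN : ∀ a v, a :: v ∉ T → q (a :: v) - q v = g (a :: v) := by
    intro a v h
    simp only [hq, lastVal_not_mem _ h, pathPotential]
    ring
  set H : ℝ → List ℕ → ℝ := fun σ s => α * p s + β * trunc (p s) (σ * q s) with hH
  have hon : ∀ σ, ∀ s ∈ T, incr (H σ) s = α * f s := by
    intro σ s hs
    cases s with
    | nil => simp [incr, hH, hqT _ hs, hpT _ hs, trunc_zero, pathPotential]
    | cons a v =>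
      have hv := hT a v hs
      simp only [incr, hH, hqT _ hs, hpT _ hs, hqT _ hv, hpT _ hv, mul_zero, trunc_zero,
        pathPotential]
      ring
  have hoff : ∀ σ a v, a :: v ∉ T → incr (H σ) (a :: v) =
      β * (trunc (p v) (σ * q (a :: v)) - trunc (p v) (σ * q v)) := by
    intro σ a v h
    simp only [incr, hH, hpN a v h]
    ring
  have hsq : ∀ σ : ℝ, |σ| = 1 → ∀ s, incr (H σ) s ^ 2 ≤ α ^ 2 * f s ^ 2 + β ^ 2 * g s ^ 2 := by
    intro σ hσ s
    by_cases hs : s ∈ T
    · rw [hon σ s hs, mul_pow]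
      nlinarith [sq_nonneg (β * g s)]
    · cases s with
      | nil => exact absurd h0 hs
      | cons a v =>
        rw [hoff σ a v hs, mul_pow]
        have h1 := trunc_lip (p v) (σ * q (a :: v)) (σ * q v)
        rw [← mul_sub, hqN a v hs, abs_mul, hσ, one_mul] at h1
        have h2 := sq_le_sq.2 h1
        nlinarith [sq_nonneg (α * f (a :: v)), sq_nonneg β]
  have hpot : ∀ σ : ℝ, |σ| = 1 → ∀ s, C s → |pathPotential (incr (H σ)) s| ≤ 1 := by
    intro σ hσ s hs
    rw [pathPotential_incr]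
    exact abs_comb_le (hp1 s hs) (by rw [abs_mul, hσ, one_mul]; exact hq2 s hs) hα hα1 hβ hβ1
  refine ⟨incr (H 1), incr (H (-1)), hpot 1 (by simp), hpot (-1) (by simp), hsq 1 (by simp),
    hsq (-1) (by simp), fun s hs => ⟨hon 1 s hs, hon (-1) s hs⟩, fun s hs => ?_⟩
  cases s with
  | nil => exact absurd h0 hs
  | cons a v =>
    rw [hoff 1 a v hs, hoff (-1) a v hs, ← hqN a v hs]
    have h1 := trunc_sub (p v) (q (a :: v))
    have h2 := trunc_sub (p v) (q v)
    simp only [one_mul, neg_mul]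
    linear_combination β * h1 - β * h2

theorem exists_head (T0 : Set (List ℕ)) (hT0 : T0.Finite) :
    ∃ T : Set (List ℕ), T0 ⊆ T ∧ T.Finite ∧ [] ∈ T ∧ ∀ a v, a :: v ∈ T → v ∈ T := by
  refine ⟨insert [] (⋃ u ∈ T0, {s | s ∈ u.tails}), ?_, ?_, by simp, ?_⟩
  · intro u hu
    refine Set.mem_insert_of_mem _ ?_
    simp only [Set.mem_iUnion, Set.mem_ofPred_eq, List.mem_tails]
    exact ⟨u, hu, List.suffix_refl u⟩
  · exact (hT0.biUnion fun u _ => List.finite_toSet _).insert _
  · intro a v h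
    refine Set.mem_insert_of_mem _ ?_
    rcases h with h | h
    · exact absurd h (by simp)
    · simp only [Set.mem_iUnion, Set.mem_ofPred_eq, List.mem_tails] at h ⊢
      obtain ⟨u, hu, h⟩ := h
      exact ⟨u, hu, (List.suffix_cons a v).trans h⟩

theorem pathPotential_single (u s : List ℕ) :
    pathPotential (Pi.single u (1 : ℝ)) s = if u <:+ s then 1 else 0 := by
  induction s with
  | nil => simp [pathPotential, Pi.single_apply, eq_comm]
  | cons a v ih =>
    simp only [pathPotential, ih, Pi.single_apply, List.suffix_cons_iff]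
    by_cases h1 : u = a :: v
    · have h2 : ¬ u <:+ v := by
        intro h
        have := h.length_le
        rw [h1] at this
        simp at this
      simp [h1.symm, h2]
    · have h1' : ¬ (a :: v = u) := fun h => h1 h.symm
      simp [h1, h1']

theorem abs_pathPotential_single_le (u s : List ℕ) :
    |pathPotential (Pi.single u (1 : ℝ)) s| ≤ 1 := by
  rw [pathPotential_single]
  split_ifs <;> simp

theorem sum_single_sq_le {ι : Type} (u : List ℕ) (A : Finset ι) (j : ι → List ℕ)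
    (hj : Function.Injective j) : ∑ a ∈ A, (Pi.single u (1 : ℝ) : List ℕ → ℝ) (j a) ^ 2 ≤ 1 := by
  classical
  have h1 : ∑ a ∈ A, (Pi.single u (1 : ℝ) : List ℕ → ℝ) (j a) ^ 2 =
      ∑ s ∈ A.image j, (Pi.single u (1 : ℝ) : List ℕ → ℝ) s ^ 2 := by
    rw [Finset.sum_image fun a _ b _ h => hj h]
  rw [h1]
  have h2 : ∀ s, (Pi.single u (1 : ℝ) : List ℕ → ℝ) s ^ 2 = if s = u then 1 else 0 := by
    intro s
    rw [Pi.single_apply]
    split_ifs <;> simp
  simp only [h2, Finset.sum_ite_eq']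
  split_ifs <;> simp

theorem pathPotential_neg (f : List ℕ → ℝ) (s : List ℕ) :
    pathPotential (-f) s = -pathPotential f s := by
  induction s with
  | nil => rfl
  | cons a v ih => simp [pathPotential, ih]; ring

/-- Path sums of a family of vectors. -/
def pathSum {X : Type} [AddCommGroup X] (e : List ℕ → X) : List ℕ → X
  | [] => e []
  | a :: v => pathSum e v + e (a :: v)

theorem map_pathSum {X : Type} [NormedAddCommGroup X] [NormedSpace ℝ X] (e : List ℕ → X)
    (φ : X →L[ℝ] ℝ) (s : List ℕ) : φ (pathSum e s) = pathPotential (fun u => φ (e u)) s := by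
  induction s with
  | nil => rfl
  | cons a v ih => simp [pathSum, pathPotential, ih]

theorem sum_mul_le_sqrt {ι : Type} (A : Finset ι) (c f : ι → ℝ) (hf : ∑ a ∈ A, f a ^ 2 ≤ 1) :
    ∑ a ∈ A, c a * f a ≤ 1 * √(∑ a ∈ A, c a ^ 2) := by
  have h1 := Real.sum_mul_le_sqrt_mul_sqrt A c f
  have h2 : √(∑ a ∈ A, f a ^ 2) ≤ 1 := Real.sqrt_le_one.2 hf
  have h3 := Real.sqrt_nonneg (∑ a ∈ A, c a ^ 2)
  nlinarith

/-- A normed space with a total family indexed by the tree, normed by tests with bounded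
potentials on the vertices satisfying `C` and an extra square-sum condition. -/
structure TreeSys (X : Type) [NormedAddCommGroup X] [NormedSpace ℝ X] (e : List ℕ → X)
    (C : List ℕ → Prop) (Extra : (List ℕ → ℝ) → Prop) (κ : Type) (Φ : κ → X →L[ℝ] ℝ) : Prop where
  dense : Dense (Submodule.span ℝ (Set.range e) : Set X)
  tail : ∀ a v, C (a :: v) → C v
  pot : ∀ f s, C s → |pathPotential (fun u => Φ f (e u)) s| ≤ 1
  extra : ∀ f, Extra (fun u => Φ f (e u))
  real : ∀ h : List ℕ → ℝ, (∀ s, C s → |pathPotential h s| ≤ 1) → Extra h →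
    ∃ f, ∀ s, Φ f (e s) = h s
  le_norm : ∀ f x, Φ f x ≤ ‖x‖
  norm_le : ∀ (x : X) (r : ℝ), 0 ≤ r → (∀ f, |Φ f x| ≤ r) → ‖x‖ ≤ r
  dom : ∀ (f g h : List ℕ → ℝ) (α β : ℝ), Extra f → Extra g → α ^ 2 + β ^ 2 ≤ 1 →
    (∀ s, h s ^ 2 ≤ α ^ 2 * f s ^ 2 + β ^ 2 * g s ^ 2) → Extra h
  sib : ∀ f, Extra f → ∀ (r : List ℕ) (A : Finset ℕ), ∑ n ∈ A, f (n :: r) ^ 2 ≤ 1
  single : ∀ a v, Extra (Pi.single (a :: v) (1 : ℝ))

namespace TreeSys

variable {X : Type} [NormedAddCommGroup X] [NormedSpace ℝ X] {e : List ℕ → X}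
    {C : List ℕ → Prop} {Extra : (List ℕ → ℝ) → Prop} {κ : Type} {Φ : κ → X →L[ℝ] ℝ}

theorem exists_neg (h : TreeSys X e C Extra κ Φ) (f : κ) : ∃ g, ∀ x, Φ g x = -Φ f x := by
  obtain ⟨g, hg⟩ := h.real (-fun u => Φ f (e u))
    (fun s hs => by rw [pathPotential_neg, abs_neg]; exact h.pot f s hs)
    (h.dom _ _ _ 1 0 (h.extra f) (h.extra f) (by norm_num) (by simp))
  refine ⟨g, fun x => ?_⟩
  have : Φ g = -Φ f := by
    apply ContinuousLinearMap.ext_on h.dense
    rintro _ ⟨s, rfl⟩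
    simpa using hg s
  simp [this]

theorem exists_single (h : TreeSys X e C Extra κ Φ) (a : ℕ) (v : List ℕ) :
    ∃ f, ∀ s, Φ f (e s) = (Pi.single (a :: v) (1 : ℝ) : List ℕ → ℝ) s :=
  h.real _ (fun s _ => abs_pathPotential_single_le _ s) (h.single a v)

theorem norm_le' (h : TreeSys X e C Extra κ Φ) (x : X) (r : ℝ) (hr : ∀ f, Φ f x ≤ r) :
    ‖x‖ ≤ r := by
  have key : ∀ f, |Φ f x| ≤ r := by
    intro f
    obtain ⟨g, hg⟩ := h.exists_neg f
    have h1 := hr f
    have h2 := hr g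
    rw [hg] at h2
    rw [abs_le]
    constructor <;> linarith
  obtain ⟨f, -⟩ := h.exists_single 0 []
  exact h.norm_le x r ((abs_nonneg _).trans (key f)) key

theorem star (h : TreeSys X e C Extra κ Φ) : Star X := by
  refine star_of_tests e h.dense Φ h.le_norm (fun x r hr => ?_) (fun T0 hT0 => ?_)
  · by_contra hcon
    push Not at hcon
    exact absurd (h.norm_le' x r hcon) (not_le.2 hr)
  · obtain ⟨T, h1, h2, h3, h4⟩ := exists_head T0 hT0
    refine ⟨T, h1, h2, fun f g α β hα hβ hβ1 hαβ => ?_⟩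
    obtain ⟨h₁, h₂, p1, p2, s1, s2, on, off⟩ := exists_comb C h.tail T h3 h4 _ _
      (h.pot f) (h.pot g) α β hα (by nlinarith) hβ hβ1
    obtain ⟨k₁, hk₁⟩ := h.real h₁ p1 (h.dom _ _ _ α β (h.extra f) (h.extra g) hαβ s1)
    obtain ⟨k₂, hk₂⟩ := h.real h₂ p2 (h.dom _ _ _ α β (h.extra f) (h.extra g) hαβ s2)
    refine ⟨k₁, k₂, fun s hs => ?_, fun s hs => ?_⟩
    · rw [hk₁, hk₂]; exact on s hs
    · rw [hk₁, hk₂]; exact off s hs

theorem norm_pathSum_le (h : TreeSys X e C Extra κ Φ) (s : List ℕ) (hs : C s) :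
    ‖pathSum e s‖ ≤ 1 := by
  refine h.norm_le _ _ zero_le_one fun f => ?_
  rw [map_pathSum]
  exact h.pot f s hs

theorem one_le_norm (h : TreeSys X e C Extra κ Φ) (a : ℕ) (v : List ℕ) : 1 ≤ ‖e (a :: v)‖ := by
  obtain ⟨f, hf⟩ := h.exists_single a v
  have := h.le_norm f (e (a :: v))
  rwa [hf, Pi.single_eq_same] at this

theorem one_le_norm_pathSum (h : TreeSys X e C Extra κ Φ) : 1 ≤ ‖pathSum e [0]‖ := by
  obtain ⟨f, hf⟩ := h.exists_single 0 []
  have := h.le_norm f (pathSum e [0])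
  simpa [pathSum, hf] using this

theorem weakNull (h : TreeSys X e C Extra κ Φ) (v : List ℕ) : WeakNull fun a => e (a :: v) := by
  refine weakNull_of_sq_bound _ 1 fun A c => h.norm_le' _ _ fun f => ?_
  simp only [map_sum, map_smul, smul_eq_mul]
  exact sum_mul_le_sqrt A c _ (h.sib _ (h.extra f) v A)

theorem not_finiteDimensional (h : TreeSys X e C Extra κ Φ) : ¬ FiniteDimensional ℝ X :=
  not_finiteDimensional_of_weakNull (h.weakNull []) one_pos fun a => h.one_le_norm a []

theorem separable (h : TreeSys X e C Extra κ Φ) : TopologicalSpace.SeparableSpace X := by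
  have h1 : TopologicalSpace.IsSeparable (Set.range e) := (Set.countable_range e).isSeparable
  have h2 := (h1.span (R := ℝ)).closure
  rw [h.dense.closure_eq] at h2
  exact TopologicalSpace.isSeparable_univ_iff.1 h2

end TreeSys

theorem sum_sq_le_of_dom {ι : Type} (A : Finset ι) (f g h : ι → ℝ) (α β : ℝ)
    (hf : ∑ a ∈ A, f a ^ 2 ≤ 1) (hg : ∑ a ∈ A, g a ^ 2 ≤ 1) (hαβ : α ^ 2 + β ^ 2 ≤ 1)
    (hh : ∀ s, h s ^ 2 ≤ α ^ 2 * f s ^ 2 + β ^ 2 * g s ^ 2) : ∑ a ∈ A, h a ^ 2 ≤ 1 := by
  have h1 : ∑ a ∈ A, h a ^ 2 ≤ ∑ a ∈ A, (α ^ 2 * f a ^ 2 + β ^ 2 * g a ^ 2) :=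
    Finset.sum_le_sum fun a _ => hh a
  rw [Finset.sum_add_distrib, ← Finset.mul_sum, ← Finset.mul_sum] at h1
  nlinarith [sq_nonneg α, sq_nonneg β]

theorem dense_span_closure {Y I : Type} [NormedAddCommGroup Y] [NormedSpace ℝ Y] (v : I → Y)
    (e : I → (Submodule.span ℝ (Set.range v)).topologicalClosure) (he : ∀ i, (e i : Y) = v i) :
    Dense (Submodule.span ℝ (Set.range e) :
      Set (Submodule.span ℝ (Set.range v)).topologicalClosure) := by
  rw [Subtype.dense_iff]
  intro y hy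
  have h1 : Subtype.val '' (Submodule.span ℝ (Set.range e) :
      Set (Submodule.span ℝ (Set.range v)).topologicalClosure) =
      (Submodule.span ℝ (Set.range v) : Set Y) := by
    have := Submodule.map_span (Submodule.span ℝ (Set.range v)).topologicalClosure.subtype
      (Set.range e)
    have h2 : (Submodule.span ℝ (Set.range v)).topologicalClosure.subtype '' Set.range e =
        Set.range v := by
      rw [← Set.range_comp]
      congr 1
      funext i
      exact he i
    rw [h2] at this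
    exact congrArg (fun S : Submodule ℝ Y => (S : Set Y)) this
  exact closure_mono h1.ge hy

end Crest.Agent.R125
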